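import Mathlib

/-!
# P002: the algebraic integers form a Bezout ring, and their lattices have bases
-/

namespace Vale.Agent.P002.Solv

open scoped nonZeroDivisors

/-- The algebraic integers in ℂ. -/
noncomputable abbrev AI : Subalgebra ℤ ℂ := integralClosure ℤ ℂ

theorem mem_AI {z : ℂ} : z ∈ AI ↔ IsIntegral ℤ z := Iff.rfl

/-- Finitely many algebraic numbers, not all zero, have a common divisor which is a combination. -/
theorem exists_gcd {ι : Type} [Fintype ι] (x : ι → ℂ) (hx : ∀ i, IsAlgebraic ℤ (x i)) {i₀ : ι}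
    (h0 : x i₀ ≠ 0) :
    ∃ (d : ℂ) (c : ι → ℂ), d ≠ 0 ∧ IsAlgebraic ℤ d ∧ (∀ i, IsIntegral ℤ (c i)) ∧
      ∑ i, c i * x i = d ∧ ∀ i, IsIntegral ℤ (x i / d) := by
  classical
  choose D hD hDi using fun i => (hx i).exists_integral_multiple
  let M : ℤ := ∏ i, D i
  have hM : (M : ℂ) ≠ 0 := by
    exact_mod_cast Finset.prod_ne_zero_iff.2 fun i _ => hD i
  let y : ι → ℂ := fun i => (M : ℂ) * x i
  have hy : ∀ i, IsIntegral ℤ (y i) := fun i => by
    obtain ⟨t, ht⟩ : D i ∣ M := Finset.dvd_prod_of_mem D (Finset.mem_univ i)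
    have hi : IsIntegral ℤ ((D i : ℂ) * x i) := by simpa using hDi i
    show IsIntegral ℤ ((M : ℂ) * x i)
    rw [ht, mul_comm (D i), Int.cast_mul, mul_assoc]
    exact (isIntegral_algebraMap (R := ℤ) (A := ℂ) (x := t)).mul hi
  let Kf : IntermediateField ℚ ℂ := IntermediateField.adjoin ℚ (Set.range y)
  have : FiniteDimensional ℚ Kf :=
    IntermediateField.finiteDimensional_adjoin fun z hz => by
      obtain ⟨i, rfl⟩ := hz
      exact (hy i).tower_top
  have : NumberField Kf := ⟨⟩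
  let O := NumberField.RingOfIntegers Kf
  have hint : ∀ a : O, IsIntegral ℤ ((a : Kf) : ℂ) := fun a =>
    (NumberField.RingOfIntegers.isIntegral_coe a).map (Kf.val.restrictScalars ℤ)
  let z : ι → O := fun i => ⟨⟨y i, IntermediateField.subset_adjoin ℚ _ ⟨i, rfl⟩⟩,
    (isIntegral_algHom_iff (Kf.val.restrictScalars ℤ) Subtype.val_injective).1 (hy i)⟩
  let val : O →+* ℂ := (Kf.val.toRingHom).comp (algebraMap O Kf)
  have hvz : ∀ i, val (z i) = y i := fun i => rfl
  have hvint : ∀ a, IsIntegral ℤ (val a) := hint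
  have hvinj : Function.Injective val := fun a b h =>
    Subtype.ext (Subtype.val_injective h)
  let J : Ideal O := Ideal.span (Set.range z)
  have hJ0 : J ≠ ⊥ := fun h => by
    have : z i₀ = 0 := (Submodule.mem_bot O).1 (h ▸ Ideal.subset_span ⟨i₀, rfl⟩)
    have h2 := congrArg val this
    rw [hvz, map_zero] at h2
    exact (mul_ne_zero hM h0) h2
  have hJm : J ∈ (Ideal O)⁰ := mem_nonZeroDivisors_iff_ne_zero.2 hJ0
  let h := Fintype.card (ClassGroup O)
  have hh : 0 < h := Fintype.card_pos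
  obtain ⟨g, hg⟩ : (J ^ h).IsPrincipal := by
    refine (ClassGroup.mk0_eq_one_iff (pow_mem hJm h)).1 ?_
    rw [show (⟨J ^ h, pow_mem hJm h⟩ : (Ideal O)⁰) = ⟨J, hJm⟩ ^ h from Subtype.ext rfl, map_pow,
      pow_card_eq_one]
  have hg' : J ^ h = Ideal.span {g} := hg
  have hg0 : g ≠ 0 := by
    rintro rfl
    rw [Ideal.span_singleton_eq_bot.2 rfl] at hg'
    exact hJ0 (eq_zero_of_pow_eq_zero hg')
  obtain ⟨d, hd⟩ := IsAlgClosed.exists_pow_nat_eq (val g) hh
  have hd0 : d ≠ 0 := by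
    rintro rfl
    rw [zero_pow hh.ne'] at hd
    exact hg0 (hvinj (hd.symm.trans (map_zero val).symm))
  have hdint : IsIntegral ℤ d := IsIntegral.of_pow hh (hd.symm ▸ hvint g)
  have key : ∀ (k : ℕ) (β : O), β ∈ J ^ k → IsIntegral ℤ (val β / d ^ k) := by
    intro k β hβ
    refine IsIntegral.of_pow hh ?_
    have hm : β ^ h ∈ Ideal.span {g ^ k} := by
      rw [← Ideal.span_singleton_pow, ← hg', ← pow_mul, mul_comm h k, pow_mul]
      exact Ideal.pow_mem_pow hβ h
    obtain ⟨t, ht⟩ := Ideal.mem_span_singleton'.1 hm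
    rw [div_pow, ← pow_mul, mul_comm k h, pow_mul, hd, ← map_pow, ← map_pow, ← ht, map_mul,
      mul_div_assoc, div_self (fun e => hg0 (eq_zero_of_pow_eq_zero (hvinj (e.trans
        (map_zero val).symm)))), mul_one]
    exact hvint t
  obtain ⟨h', hh'⟩ : ∃ h', h = h' + 1 := ⟨h - 1, by omega⟩
  have hmem : g ∈ J * J ^ h' := by
    rw [← pow_succ', ← hh', hg']
    exact Ideal.subset_span rfl
  obtain ⟨c, hc, hce⟩ : ∃ c : ι → ℂ, (∀ i, IsIntegral ℤ (c i)) ∧
      val g / d ^ h' = ∑ i, c i * y i := by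
    refine Submodule.mul_induction_on (C := fun w => ∃ c : ι → ℂ, (∀ i, IsIntegral ℤ (c i)) ∧
      val w / d ^ h' = ∑ i, c i * y i) hmem (fun u hu β hβ => ?_) ?_
    · obtain ⟨a, ha⟩ := Ideal.mem_span_range_iff_exists_fun.1 hu
      refine ⟨fun i => val (a i) * (val β / d ^ h'), fun i => (hvint _).mul (key h' β hβ), ?_⟩
      rw [map_mul, mul_div_assoc, ← ha, map_sum, Finset.sum_mul]
      refine Finset.sum_congr rfl fun i _ => ?_
      rw [map_mul, hvz]
      ring
    · rintro u v ⟨a, ha, hae⟩ ⟨b, hb, hbe⟩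
      refine ⟨a + b, fun i => (ha i).add (hb i), ?_⟩
      rw [map_add, add_div, hae, hbe, ← Finset.sum_add_distrib]
      exact Finset.sum_congr rfl fun i _ => (add_mul _ _ _).symm
  have hdval : val g / d ^ h' = d := by
    rw [div_eq_iff (pow_ne_zero _ hd0), ← pow_succ', ← hh', hd]
  refine ⟨d / (M : ℂ), c, div_ne_zero hd0 hM, ?_, hc, ?_, fun i => ?_⟩
  · rw [div_eq_mul_inv]
    exact hdint.isAlgebraic.mul (isAlgebraic_int M).inv
  · rw [eq_div_iff hM, Finset.sum_mul, ← hdval, hce]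
    exact Finset.sum_congr rfl fun i _ => by show c i * x i * M = c i * ((M : ℂ) * x i); ring
  · have h1 := key 1 (z i) (by rw [pow_one]; exact Ideal.subset_span ⟨i, rfl⟩)
    rw [pow_one, hvz] at h1
    rwa [div_div_eq_mul_div, mul_comm (x i)]

/-- A finitely generated lattice of algebraic vectors has a free basis. -/
theorem exists_lattice_basis {n : Type} [Fintype n] : ∀ (s : Finset n) {ι : Type} [Fintype ι]
    (X : ι → n → ℂ), (∀ i j, IsAlgebraic ℤ (X i j)) → (∀ i, ∀ j ∉ s, X i j = 0) →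
    ∃ (k : ℕ) (w : Fin k → n → ℂ), LinearIndependent ℂ w ∧ (∀ t j, IsAlgebraic ℤ (w t j)) ∧
      (∀ t, ∀ j ∉ s, w t j = 0) ∧
      (∀ i, ∃ a : Fin k → ℂ, (∀ t, IsIntegral ℤ (a t)) ∧ X i = ∑ t, a t • w t) ∧
      ∀ t, ∃ c : ι → ℂ, (∀ i, IsIntegral ℤ (c i)) ∧ w t = ∑ i, c i • X i := by
  classical
  intro s
  induction s using Finset.induction_on with
  | empty =>
    intro ι _ X _ hX
    exact ⟨0, Fin.elim0, linearIndependent_empty_type, fun t => t.elim0, fun t => t.elim0,
      fun i => ⟨Fin.elim0, fun t => t.elim0, funext fun j => by simp [hX i j (Finset.notMem_empty j)]⟩,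
      fun t => t.elim0⟩
  | @insert j₀ s hj₀ ih =>
    intro ι _ X halg hX
    by_cases hall : ∀ i, X i j₀ = 0
    · obtain ⟨k, w, h1, h2, h3, h4, h5⟩ := ih X halg fun i j hj => if e : j = j₀ then e ▸ hall i
        else hX i j (by simp [e, hj])
      exact ⟨k, w, h1, h2, fun t j hj => h3 t j (fun h => hj (Finset.mem_insert_of_mem h)), h4, h5⟩
    push Not at hall
    obtain ⟨i₀, hi₀⟩ := hall
    obtain ⟨d, c, hd, -, hc, hcd, hdiv⟩ := exists_gcd (fun i => X i j₀) (fun i => halg i j₀) hi₀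
    let w₀ : n → ℂ := ∑ i, c i • X i
    have hw₀j : w₀ j₀ = d := by simpa [w₀] using hcd
    let X' : ι → n → ℂ := fun i => X i - (X i j₀ / d) • w₀
    have hw₀a : ∀ j, IsAlgebraic ℤ (w₀ j) := fun j => by
      simp only [w₀, Finset.sum_apply, Pi.smul_apply, smul_eq_mul]
      exact Subalgebra.sum_mem (Subalgebra.algebraicClosure ℤ ℂ)
        fun i _ => (hc i).isAlgebraic.mul (halg i j)
    obtain ⟨k, w, h1, h2, h3, h4, h5⟩ := ih X'
      (fun i j => (halg i j).sub ((hdiv i).isAlgebraic.mul (hw₀a j)))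
      (fun i j hj => by
        simp only [X', Pi.sub_apply, Pi.smul_apply, smul_eq_mul]
        by_cases e : j = j₀
        · subst e
          rw [hw₀j, div_mul_cancel₀ _ hd, sub_self]
        · have hj' : j ∉ insert j₀ s := by simp [e, hj]
          have : w₀ j = 0 := by simp [w₀, fun i => hX i j hj']
          rw [hX i j hj', this, mul_zero, sub_self])
    refine ⟨k + 1, Fin.cons w₀ w, linearIndependent_fin_cons.2 ⟨h1, fun hmem => ?_⟩,
      Fin.cases (fun j => by simpa using hw₀a j) (fun t j => by simpa using h2 t j),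
      Fin.cases (fun j hj => by simp [w₀, fun i => hX i j hj])
        (fun t j hj => by simpa using h3 t j fun h => hj (Finset.mem_insert_of_mem h)),
      fun i => ?_, Fin.cases ⟨c, hc, by simp [w₀]⟩ fun t => ?_⟩
    · obtain ⟨a, ha⟩ := Submodule.mem_span_range_iff_exists_fun ℂ |>.1 hmem
      have := congrFun ha j₀
      rw [hw₀j] at this
      exact hd (this ▸ by simp [fun t => h3 t j₀ hj₀])
    · obtain ⟨a, ha, hae⟩ := h4 i
      refine ⟨Fin.cons (X i j₀ / d) a, Fin.cases (by simpa using hdiv i)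
        (fun t => by simpa using ha t), ?_⟩
      rw [Fin.sum_univ_succ]
      simp [← hae, X']
    · obtain ⟨e, he, hee⟩ := h5 t
      let q := ∑ i, e i * (X i j₀ / d)
      refine ⟨fun i => e i - q * c i, fun i => (he i).sub
        ((IsIntegral.sum _ fun i _ => (he i).mul (hdiv i)).mul (hc i)), ?_⟩
      rw [Fin.cons_succ, hee]
      simp only [X', smul_sub, Finset.sum_sub_distrib, sub_smul, smul_smul]
      rw [← Finset.sum_smul]
      congr 1
      show q • w₀ = _
      simp only [w₀, Finset.smul_sum, smul_smul]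

end Vale.Agent.P002.Solv
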