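import Mathlib

/-!
# P002: Jordan's theorem on finite linear groups
-/

namespace Vale.Agent.P002.Solv

open Matrix
open scoped Matrix.Norms.L2Operator ComplexOrder MatrixOrder

variable {r : ℕ}

theorem norm_unitary_le {A : Matrix (Fin r) (Fin r) ℂ} (hA : A ∈ unitary (Matrix (Fin r) (Fin r) ℂ)) :
    ‖A‖ ≤ 1 := by
  rcases subsingleton_or_nontrivial (Matrix (Fin r) (Fin r) ℂ) with h | h
  · rw [Subsingleton.elim A 0]; simp
  · exact (CStarRing.norm_of_mem_unitary hA).le

/-- A unitary of finite order commuting with a conjugate by a unitary near one commutes with it. -/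
theorem commute_of_near {A B : Matrix (Fin r) (Fin r) ℂ}
    (hA : A ∈ unitary (Matrix (Fin r) (Fin r) ℂ)) (hB : B ∈ unitary (Matrix (Fin r) (Fin r) ℂ))
    {n : ℕ} (hn : 0 < n) (hAn : A ^ n = 1) (hnear : ‖B - 1‖ < 1)
    (hcomm : Commute A (B * A * star B)) : Commute A B := by
  classical
  obtain ⟨ζ, hζ⟩ : ∃ ζ : ℂ, IsPrimitiveRoot ζ n := ⟨_, Complex.isPrimitiveRoot_exp n hn.ne'⟩
  have hζ0 : ζ ≠ 0 := hζ.ne_zero hn.ne'
  let P : ℕ → Matrix (Fin r) (Fin r) ℂ := fun i =>
    (n : ℂ)⁻¹ • ∑ j ∈ Finset.range n, (ζ⁻¹) ^ (i * j) • A ^ j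
  have hn0 : (n : ℂ) ≠ 0 := by exact_mod_cast hn.ne'
  have hAP : ∀ i, A * P i = ζ ^ i • P i := by
    intro i
    simp only [P, Matrix.mul_smul, Matrix.mul_sum, Finset.smul_sum, smul_smul, ← pow_succ']
    obtain ⟨m, rfl⟩ : ∃ m, n = m + 1 := ⟨n - 1, by omega⟩
    conv_rhs => rw [Finset.sum_range_succ']
    rw [Finset.sum_range_succ, hAn, pow_zero]
    congr 1
    · refine Finset.sum_congr rfl fun j _ => ?_
      congr 1
      rw [show i * (j + 1) = i * j + i by ring, pow_add]
      field_simp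
      rw [← mul_pow, mul_one_div, div_self hζ0, one_pow]
    · congr 1
      have h1 : ζ ^ (i * m) * ζ ^ i = 1 := by
        rw [← pow_add, show i * m + i = (m + 1) * i by ring, pow_mul, hζ.pow_eq_one, one_pow]
      rw [inv_pow, inv_eq_of_mul_eq_one_right h1]
      ring_nf
  have hPP : ∀ i k, i < n → k < n → P i * P k = if i = k then P k else 0 := by
    intro i k hi hk
    have hpow : ∀ j, A ^ j * P k = ζ ^ (k * j) • P k := by
      intro j
      induction j with
      | zero => simp
      | succ j ih => rw [pow_succ, mul_assoc, hAP, Matrix.mul_smul, ih, smul_smul, ← pow_add,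
          show k + k * j = k * (j + 1) by ring]
    conv_lhs => simp only [P]
    rw [Matrix.smul_mul, Finset.sum_mul]
    simp only [Matrix.smul_mul, show ∀ j, A ^ j * ((n : ℂ)⁻¹ • ∑ l ∈ Finset.range n,
      (ζ⁻¹) ^ (k * l) • A ^ l) = ζ ^ (k * j) • P k from hpow, smul_smul, ← Finset.sum_smul]
    have hterm : ∀ j, (ζ⁻¹) ^ (i * j) * ζ ^ (k * j) = ((ζ⁻¹) ^ i * ζ ^ k) ^ j := fun j => by
      rw [mul_pow, ← pow_mul, ← pow_mul]
    simp only [hterm]
    by_cases h : i = k
    · subst h
      simp [inv_pow, hζ0, hn0]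
    · rw [if_neg h]
      have hne : (ζ⁻¹) ^ i * ζ ^ k ≠ 1 := fun e => h (by
        refine hζ.pow_inj hi hk ?_
        rw [inv_pow, inv_mul_eq_one₀ (pow_ne_zero _ hζ0)] at e
        exact e)
      have hq : ((ζ⁻¹) ^ i * ζ ^ k) ^ n = 1 := by
        rw [mul_pow, ← pow_mul, ← pow_mul, mul_comm i, mul_comm k, pow_mul, pow_mul, inv_pow,
          hζ.pow_eq_one]
        simp
      rw [geom_sum_eq hne, hq, sub_self, zero_div, mul_zero, zero_smul]
  have hsum : ∑ i ∈ Finset.range n, P i = 1 := by
    simp only [P, ← Finset.smul_sum]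
    rw [Finset.sum_comm]
    have hj : ∀ j ∈ Finset.range n, ∑ i ∈ Finset.range n, (ζ⁻¹) ^ (i * j) • A ^ j =
        if j = 0 then (n : ℂ) • 1 else 0 := by
      intro j hj
      rw [← Finset.sum_smul]
      by_cases h : j = 0
      · subst h; simp [Nat.cast_smul_eq_nsmul]
      · rw [if_neg h]
        have hz := hζ.inv
        have hne : (ζ⁻¹) ^ j ≠ 1 := hz.pow_ne_one_of_pos_of_lt h (Finset.mem_range.1 hj)
        rw [Finset.sum_congr rfl fun i _ => (show (ζ⁻¹) ^ (i * j) = ((ζ⁻¹) ^ j) ^ i by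
          rw [← pow_mul, mul_comm]), geom_sum_eq hne, ← pow_mul, mul_comm, pow_mul, hz.pow_eq_one,
          one_pow, sub_self, zero_div, zero_smul]
    rw [Finset.sum_congr rfl hj, Finset.sum_ite_eq', if_pos (Finset.mem_range.2 hn), smul_smul,
      inv_mul_cancel₀ hn0, one_smul]
  have hPnorm : ∀ i, ‖P i‖ ≤ 1 := by
    intro i
    have hζn : ‖ζ‖ = 1 := Complex.norm_eq_one_of_pow_eq_one hζ.pow_eq_one hn.ne'
    refine (norm_smul_le _ _).trans ?_
    rw [norm_inv, Complex.norm_natCast, inv_mul_le_iff₀ (by exact_mod_cast hn), mul_one]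
    refine (norm_sum_le _ _).trans ((Finset.sum_le_card_nsmul _ _ 1 fun j _ => ?_).trans ?_)
    · refine (norm_smul_le _ _).trans ?_
      rw [norm_pow, norm_inv, hζn, inv_one, one_pow, one_mul]
      exact norm_unitary_le (pow_mem hA j)
    · simp
  have hBB : star B * B = 1 := Unitary.star_mul_self_of_mem hB
  have hkey : ∀ i k, i < n → k < n → i ≠ k → P i * B * P k = 0 := by
    intro i k hi hk hik
    let A' := B * A * star B
    let P' := B * P k * star B
    have hc : Commute (P i) P' := by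
      have h1 : Commute (P i) A' :=
        (Commute.sum_left _ _ _ fun j _ => ((hcomm.pow_left j).smul_left _)).smul_left _
      have hAj : ∀ j : ℕ, B * A ^ j * star B = A' ^ j := by
        intro j
        induction j with
        | zero => simp [Unitary.mul_star_self_of_mem hB]
        | succ j ih =>
          rw [pow_succ, pow_succ, ← ih]
          simp only [A', ← mul_assoc]
          rw [mul_assoc (B * A ^ j) (star B) B, hBB, mul_one]
      simp only [P', P, Matrix.mul_smul, Matrix.smul_mul, Matrix.mul_sum, Matrix.sum_mul, hAj]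
      exact (Commute.sum_right _ _ _ fun j _ => ((h1.pow_right j).smul_right _)).smul_right _
    let Q := P i * P'
    have hQQ : Q * Q = Q := by
      show P i * P' * (P i * P') = P i * P'
      rw [mul_assoc, ← mul_assoc P', ← hc.eq, mul_assoc, ← mul_assoc, ← mul_assoc,
        hPP i i hi hi, if_pos rfl]
      simp only [P', mul_assoc]
      rw [← mul_assoc (star B) B, hBB, one_mul, ← mul_assoc (P k) (P k), hPP k k hk hk, if_pos rfl]
    have hQ : Q = P i * (B - 1) * P k * star B := by
      simp only [Q, P', mul_sub, sub_mul, mul_one, ← mul_assoc, hPP i k hi hk, if_neg hik,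
        zero_mul, sub_zero]
    have hQn : ‖Q‖ < 1 := by
      rw [hQ]
      calc ‖P i * (B - 1) * P k * star B‖ ≤ ‖P i‖ * ‖B - 1‖ * ‖P k‖ * ‖star B‖ := by
            refine (norm_mul_le _ _).trans ?_
            gcongr
            refine (norm_mul_le _ _).trans ?_
            gcongr
            exact norm_mul_le _ _
        _ ≤ 1 * ‖B - 1‖ * 1 * 1 := by
            gcongr
            · exact hPnorm i
            · exact hPnorm k
            · exact norm_unitary_le (Unitary.star_mem hB)
        _ < 1 := by simpa using hnear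
    have hQ0 : Q = 0 := by
      by_contra h
      have h1 := norm_mul_le Q Q
      rw [hQQ] at h1
      have h2 : 0 < ‖Q‖ := norm_pos_iff.2 h
      nlinarith
    have := congrArg (· * B) hQ0
    simpa [Q, P', mul_assoc, hBB] using this
  have hPB : ∀ i ∈ Finset.range n, Commute (P i) B := by
    intro i hi
    have h1 : P i * B = P i * B * P i := by
      conv_lhs => rw [← mul_one (P i * B), ← hsum, Finset.mul_sum]
      refine Finset.sum_eq_single i (fun k hk hki => ?_) (fun h => absurd hi h)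
      exact hkey i k (Finset.mem_range.1 hi) (Finset.mem_range.1 hk) (Ne.symm hki)
    have h2 : B * P i = P i * B * P i := by
      conv_lhs => rw [← one_mul (B * P i), ← hsum, Finset.sum_mul]
      simp only [← mul_assoc]
      refine Finset.sum_eq_single i (fun k hk hki => ?_) (fun h => absurd hi h)
      exact hkey k i (Finset.mem_range.1 hk) (Finset.mem_range.1 hi) hki
    exact h1.trans h2.symm
  have hAe : A = ∑ i ∈ Finset.range n, ζ ^ i • P i := by
    conv_lhs => rw [← mul_one A, ← hsum, Finset.mul_sum]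
    exact Finset.sum_congr rfl fun i _ => hAP i
  rw [hAe]
  exact Commute.sum_left _ _ _ fun i hi => (hPB i hi).smul_left _

/-- Elements near one in a finite group of unitaries commute. -/
theorem near_commute (G : Subgroup (unitary (Matrix (Fin r) (Fin r) ℂ))) [Finite G] (x y : G)
    (hx : ‖((x : unitary (Matrix (Fin r) (Fin r) ℂ)) : Matrix (Fin r) (Fin r) ℂ) - 1‖ < 1 / 4)
    (hy : ‖((y : unitary (Matrix (Fin r) (Fin r) ℂ)) : Matrix (Fin r) (Fin r) ℂ) - 1‖ < 1 / 4) :
    Commute x y := by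
  classical
  let d : G → ℝ := fun g =>
    ‖((g : unitary (Matrix (Fin r) (Fin r) ℂ)) : Matrix (Fin r) (Fin r) ℂ) - 1‖
  by_contra hxy
  obtain ⟨⟨a, b⟩, ⟨ha, hb, hab⟩, hmin⟩ := Set.exists_min_image
    {q : G × G | d q.1 < 1 / 4 ∧ d q.2 < 1 / 4 ∧ ¬ Commute q.1 q.2} (fun q => d q.1 + d q.2)
    (Set.toFinite _) ⟨(x, y), hx, hy, hxy⟩
  simp only at ha hb hab hmin
  let A := ((a : unitary (Matrix (Fin r) (Fin r) ℂ)) : Matrix (Fin r) (Fin r) ℂ)
  let B := ((b : unitary (Matrix (Fin r) (Fin r) ℂ)) : Matrix (Fin r) (Fin r) ℂ)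
  have hA : A ∈ unitary (Matrix (Fin r) (Fin r) ℂ) := SetLike.coe_mem _
  have hB : B ∈ unitary (Matrix (Fin r) (Fin r) ℂ) := SetLike.coe_mem _
  have hc : d (a * b * a⁻¹ * b⁻¹) ≤ 2 * d a * d b := by
    have e : (((a * b * a⁻¹ * b⁻¹ : G) : unitary (Matrix (Fin r) (Fin r) ℂ)) :
        Matrix (Fin r) (Fin r) ℂ) - 1 =
        ((A - 1) * (B - 1) - (B - 1) * (A - 1)) * star A * star B := by
      simp only [Subgroup.coe_mul, Subgroup.coe_inv, Submonoid.coe_mul, ← Unitary.star_eq_inv,
        Unitary.coe_star]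
      have h1 : A * star A = 1 := Unitary.mul_star_self_of_mem hA
      have h2 : B * star B = 1 := Unitary.mul_star_self_of_mem hB
      have h3 : B * A * star A * star B = 1 := by rw [mul_assoc B, h1, mul_one, h2]
      rw [show (A - 1) * (B - 1) - (B - 1) * (A - 1) = A * B - B * A by noncomm_ring, sub_mul,
        sub_mul, h3]
    show ‖_‖ ≤ _
    rw [e]
    calc _ ≤ ‖(A - 1) * (B - 1) - (B - 1) * (A - 1)‖ * ‖star A‖ * ‖star B‖ := by
          refine (norm_mul_le _ _).trans ?_
          gcongr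
          exact norm_mul_le _ _
      _ ≤ (‖A - 1‖ * ‖B - 1‖ + ‖B - 1‖ * ‖A - 1‖) * 1 * 1 := by
          gcongr
          · exact (norm_sub_le _ _).trans (add_le_add (norm_mul_le _ _) (norm_mul_le _ _))
          · exact norm_unitary_le (Unitary.star_mem hA)
          · exact norm_unitary_le (Unitary.star_mem hB)
      _ = 2 * d a * d b := by simp only [d, A, B]; ring
  have ha0 : 0 ≤ d a := norm_nonneg _
  have hb0 : 0 < d b := by
    refine lt_of_le_of_ne (norm_nonneg _) fun h => hab ?_
    have h' : b = 1 := Subtype.ext (Subtype.ext (sub_eq_zero.1 (norm_eq_zero.1 h.symm)))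
    rw [h']
    exact Commute.one_right a
  have hac : Commute a (a * b * a⁻¹ * b⁻¹) := by
    by_contra h
    have := hmin (a, a * b * a⁻¹ * b⁻¹) ⟨ha, by nlinarith, h⟩
    simp only at this
    nlinarith
  have hac' : Commute a (b * a * b⁻¹) := by
    have h1 : Commute a (b * a⁻¹ * b⁻¹) := by
      have := ((Commute.refl a).inv_right).mul_right hac
      simpa [mul_assoc] using this
    simpa [mul_assoc] using h1.inv_right
  obtain ⟨n, hn, hn1⟩ := (isOfFinOrder_of_finite a).exists_pow_eq_one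
  have hcm : Commute A (B * A * star B) := by
    have := congrArg (fun g : G => ((g : unitary (Matrix (Fin r) (Fin r) ℂ)) :
      Matrix (Fin r) (Fin r) ℂ)) hac'.eq
    simp only [Subgroup.coe_mul, Subgroup.coe_inv, Submonoid.coe_mul, ← Unitary.star_eq_inv,
      Unitary.coe_star] at this
    exact this
  have hAB : Commute A B := commute_of_near hA hB hn (by
      have := congrArg (fun g : G => ((g : unitary (Matrix (Fin r) (Fin r) ℂ)) :
        Matrix (Fin r) (Fin r) ℂ)) hn1
      simpa using this) (by linarith [show ‖B - 1‖ = d b from rfl]) hcm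
  exact hab (Subtype.ext (Subtype.ext (by simpa using hAB.eq)))

/-- Jordan's theorem. -/
theorem jordan (r : ℕ) : ∃ J : ℕ, ∀ (G : Subgroup (Matrix (Fin r) (Fin r) ℂ)ˣ) [Finite G],
    ∃ A : Subgroup G, A.index ≤ J ∧ ∀ x ∈ A, ∀ y ∈ A, Commute x y := by
  classical
  obtain ⟨c, -, hcfin, hcov⟩ := (isCompact_closedBall (0 : Matrix (Fin r) (Fin r) ℂ) 1).finite_cover_balls
    (e := (1 : ℝ) / 8) (by norm_num)
  refine ⟨hcfin.toFinset.card, fun G hG => ?_⟩
  have := Fintype.ofFinite G
  -- an invariant Hermitian form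
  let S : Matrix (Fin r) (Fin r) ℂ := ∑ g : G,
    star ((g : (Matrix (Fin r) (Fin r) ℂ)ˣ) : Matrix (Fin r) (Fin r) ℂ) *
      ((g : (Matrix (Fin r) (Fin r) ℂ)ˣ) : Matrix (Fin r) (Fin r) ℂ)
  have hS : S.PosDef := by
    simp only [S]
    rw [← Finset.add_sum_erase _ _ (Finset.mem_univ (1 : G))]
    refine Matrix.PosDef.add_posSemidef (by simp [Matrix.PosDef.one])
      (Matrix.posSemidef_sum _ fun g _ => Matrix.posSemidef_conjTranspose_mul_self _)
  obtain ⟨B, hB⟩ : ∃ B, S = star B * B := CStarAlgebra.nonneg_iff_eq_star_mul_self.1 hS.posSemidef.nonneg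
  have hBu : IsUnit B := by
    rw [Matrix.isUnit_iff_isUnit_det]
    have := hS.det_pos
    rw [hB, Matrix.det_mul] at this
    exact Ne.isUnit (right_ne_zero_of_mul this.ne')
  let u := hBu.unit
  have hu1 : B * ((u⁻¹ : (Matrix (Fin r) (Fin r) ℂ)ˣ) : Matrix (Fin r) (Fin r) ℂ) = 1 :=
    hBu.mul_val_inv
  have hu2 : ((u⁻¹ : (Matrix (Fin r) (Fin r) ℂ)ˣ) : Matrix (Fin r) (Fin r) ℂ) * B = 1 :=
    hBu.val_inv_mul
  let φ : G →* (Matrix (Fin r) (Fin r) ℂ) :=
    { toFun := fun g => B * ((g : (Matrix (Fin r) (Fin r) ℂ)ˣ) : Matrix (Fin r) (Fin r) ℂ) *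
        ((u⁻¹ : (Matrix (Fin r) (Fin r) ℂ)ˣ) : Matrix (Fin r) (Fin r) ℂ)
      map_one' := by
        simp only [Subgroup.coe_one, Units.val_one, mul_one]
        exact hu1
      map_mul' := fun g h => by
        simp only [Subgroup.coe_mul, Units.val_mul, mul_assoc]
        rw [← mul_assoc ((u⁻¹ : (Matrix (Fin r) (Fin r) ℂ)ˣ) : Matrix (Fin r) (Fin r) ℂ) B, hu2,
          one_mul] }
  have hSinv : ∀ g : G, star ((g : (Matrix (Fin r) (Fin r) ℂ)ˣ) : Matrix (Fin r) (Fin r) ℂ) * S *
      ((g : (Matrix (Fin r) (Fin r) ℂ)ˣ) : Matrix (Fin r) (Fin r) ℂ) = S := by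
    intro g
    simp only [S, Finset.mul_sum, Finset.sum_mul]
    refine Fintype.sum_equiv (Equiv.mulRight g) _ _ fun h => ?_
    simp [star_mul, mul_assoc]
  have hmem : ∀ g, φ g ∈ unitary (Matrix (Fin r) (Fin r) ℂ) := by
    have h1 : ∀ g, star (φ g) * φ g = 1 := by
      intro g
      show star (B * _ * _) * (B * _ * _) = 1
      simp only [star_mul, mul_assoc]
      rw [← mul_assoc (star B) B, ← hB, ← mul_assoc S, ← mul_assoc (star _) (S * _),
        ← mul_assoc (star ((g : (Matrix (Fin r) (Fin r) ℂ)ˣ) : Matrix (Fin r) (Fin r) ℂ)) S, hSinv,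
        hB, mul_assoc, hu1, mul_one, ← star_mul, hu1, star_one]
    exact fun g => Unitary.mem_iff.2 ⟨h1 g, (mul_eq_one_comm.1 (h1 g))⟩
  let ψ : G →* unitary (Matrix (Fin r) (Fin r) ℂ) := φ.codRestrict _ hmem
  have hψinj : Function.Injective ψ := by
    intro g h e
    have e1 : φ g = φ h := congrArg Subtype.val e
    refine Subtype.ext (Units.ext ?_)
    exact hBu.mul_left_cancel ((u⁻¹).isUnit.mul_right_cancel e1)
  have : Finite ψ.range := Finite.of_surjective _ ψ.rangeRestrict_surjective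
  let N : Set G := {g | ‖φ g - 1‖ < 1 / 4}
  refine ⟨Subgroup.closure N, ?_, fun x hx y hy => ?_⟩
  · have hcen : ∀ g : G, ∃ z ∈ c, φ g ∈ Metric.ball z (1 / 8) := by
      intro g
      have h1 : φ g ∈ Metric.closedBall (0 : Matrix (Fin r) (Fin r) ℂ) 1 := by
        simpa using norm_unitary_le (hmem g)
      simpa using hcov h1
    choose z hzc hz using hcen
    let f : G ⧸ Subgroup.closure N → hcfin.toFinset := fun q =>
      ⟨z q.out, hcfin.mem_toFinset.2 (hzc _)⟩
    have hf : Function.Injective f := by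
      intro q q' h
      have hzz : z q.out = z q'.out := congrArg Subtype.val h
      rw [← q.out_eq, ← q'.out_eq]
      refine QuotientGroup.eq.2 (Subgroup.subset_closure ?_)
      show ‖φ (q.out⁻¹ * q'.out) - 1‖ < 1 / 4
      have hd : ‖φ q'.out - φ q.out‖ < 1 / 4 := by
        have d1 := hz q.out
        have d2 := hz q'.out
        rw [Metric.mem_ball] at d1 d2
        rw [← hzz] at d2
        rw [← dist_eq_norm]
        linarith [dist_triangle_right (φ q'.out) (φ q.out) (z q.out)]
      have e : φ (q.out⁻¹ * q'.out) - 1 = φ q.out⁻¹ * (φ q'.out - φ q.out) := by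
        rw [mul_sub, ← map_mul, ← map_mul, inv_mul_cancel, map_one]
      rw [e]
      refine lt_of_le_of_lt ((norm_mul_le _ _).trans ?_) hd
      exact mul_le_of_le_one_left (norm_nonneg _) (norm_unitary_le (hmem _))
    rw [Subgroup.index]
    have := Nat.card_le_card_of_injective f hf
    simpa [Set.ncard_eq_toFinset_card _ hcfin] using this
  · have hcom : ∀ a ∈ N, ∀ b ∈ N, Commute a b := fun a ha b hb => by
      have h := near_commute ψ.range ⟨ψ a, a, rfl⟩ ⟨ψ b, b, rfl⟩ ha hb
      refine hψinj ?_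
      rw [map_mul, map_mul]
      exact congrArg Subtype.val h.eq
    have hN : ∀ a ∈ N, Subgroup.closure N ≤ Subgroup.centralizer {a} := fun a ha => by
      rw [Subgroup.closure_le]
      intro b hb
      exact Subgroup.mem_centralizer_iff.2 fun g hg => by
        rw [Set.mem_singleton_iff.1 hg]; exact (hcom a ha b hb).eq
    have hle : Subgroup.closure N ≤ Subgroup.centralizer {x} := by
      rw [Subgroup.closure_le]
      intro a ha
      exact Subgroup.mem_centralizer_iff.2 fun g hg => by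
        rw [Set.mem_singleton_iff.1 hg]
        exact (Subgroup.mem_centralizer_iff.1 (hN a ha hx) a rfl).symm
    exact Subgroup.mem_centralizer_iff.1 (hle hy) x rfl

end Vale.Agent.P002.Solv
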