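import Vale.Agent.P002.Torus
import Vale.Agent.P002.Free.Blocks

/-!
# P002: representations diagonal on a normal subgroup of finite index differ from one with finite
image by a twist with values in a torus
-/

namespace Vale.Agent.P002.Solv

open Matrix

variable {Γ : Type} [Group Γ] {r : ℕ}

/-- Block scalars as units. -/
def Dg (b : Fin r → Fin r) : (Fin r → ℂˣ) →* (Matrix (Fin r) (Fin r) ℂ)ˣ where
  toFun t := ⟨Matrix.diagonal fun k => (t (b k) : ℂ),
    Matrix.diagonal fun k => (((t (b k))⁻¹ : ℂˣ) : ℂ),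
    by rw [Matrix.diagonal_mul_diagonal, ← Matrix.diagonal_one]; simp,
    by rw [Matrix.diagonal_mul_diagonal, ← Matrix.diagonal_one]; simp⟩
  map_one' := Units.ext (by simp)
  map_mul' s t := Units.ext (by simp [Matrix.diagonal_mul_diagonal])

theorem dg_val (b : Fin r → Fin r) (t : Fin r → ℂˣ) :
    (Dg b t : Matrix (Fin r) (Fin r) ℂ) = Matrix.diagonal fun k => (t (b k) : ℂ) := rfl

/-- A homomorphism into SL as one into units. -/
def toU (ρ : Γ →* Matrix.SpecialLinearGroup (Fin r) ℂ) : Γ →* (Matrix (Fin r) (Fin r) ℂ)ˣ where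
  toFun a := ⟨ρ a, ρ a⁻¹,
    (by rw [← Matrix.SpecialLinearGroup.coe_mul, ← map_mul, mul_inv_cancel, map_one]; simp),
    (by rw [← Matrix.SpecialLinearGroup.coe_mul, ← map_mul, inv_mul_cancel, map_one]; simp)⟩
  map_one' := Units.ext (by simp)
  map_mul' a c := Units.ext (by simp)

theorem toU_val (ρ : Γ →* Matrix.SpecialLinearGroup (Fin r) ℂ) (a : Γ) :
    (toU ρ a : Matrix (Fin r) (Fin r) ℂ) = ρ a := rfl

theorem conj_sub {Γ₀ : Subgroup Γ} [hn : Γ₀.Normal] (a : Γ) (h : Γ₀) : a⁻¹ * (h : Γ) * a ∈ Γ₀ := by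
  have := hn.conj_mem h h.2 a⁻¹
  rwa [inv_inv] at this

/-- The blocks of a representation which is diagonal on a normal subgroup. -/
theorem exists_blocks (ρ : Γ →* Matrix.SpecialLinearGroup (Fin r) ℂ) (Γ₀ : Subgroup Γ) [Γ₀.Normal]
    (hd : ∀ h ∈ Γ₀, (ρ h : Matrix (Fin r) (Fin r) ℂ).IsDiag) :
    ∃ (b : Fin r → Fin r) (σ : Γ →* Equiv.Perm (Fin r)) (χ : Γ₀ →* (Fin r → ℂˣ)),
      (∀ a t, Dg b t * toU ρ a = toU ρ a * Dg b (t ∘ σ a)) ∧
      (∀ h : Γ₀, toU ρ h = Dg b (χ h)) ∧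
      (∀ a (h : Γ₀) j, χ ⟨a⁻¹ * h * a, conj_sub a h⟩ j = χ h (σ a j)) ∧
      (∀ h : Γ₀, σ h = 1) ∧ ∀ (h : Γ₀) j, (∀ l, b l ≠ j) → χ h j = 1 := by
  classical
  have hne : ∀ (h : Γ₀) l, (ρ h : Matrix (Fin r) (Fin r) ℂ) l l ≠ 0 := by
    intro h l e
    have h2 := Matrix.SpecialLinearGroup.det_coe (ρ h)
    rw [← (hd h h.2).diagonal_diag, Matrix.det_diagonal] at h2
    rw [Finset.prod_eq_zero (Finset.mem_univ l) (by simpa using e)] at h2
    exact zero_ne_one h2
  let ψ : Fin r → (Γ₀ →* ℂˣ) := fun l =>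
    { toFun := fun h => Units.mk0 _ (hne h l)
      map_one' := Units.ext (by simp)
      map_mul' := fun g h => Units.ext (by
        simp only [Units.val_mk0, Units.val_mul, Subgroup.coe_mul, map_mul,
          Matrix.SpecialLinearGroup.coe_mul, Matrix.mul_apply]
        refine Finset.sum_eq_single l (fun k _ hk => ?_) (by simp)
        rw [hd g g.2 (Ne.symm hk), zero_mul]) }
  let S : Fin r → Finset (Fin r) := fun l => Finset.univ.filter fun k => ψ k = ψ l
  have hS : ∀ l, (S l).Nonempty := fun l => ⟨l, by simp [S]⟩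
  let b : Fin r → Fin r := fun l => (S l).min' (hS l)
  have hbψ : ∀ l, ψ (b l) = ψ l := fun l => (Finset.mem_filter.1 ((S l).min'_mem (hS l))).2
  have hbeq : ∀ k l, ψ k = ψ l → b k = b l := fun k l e => by
    have : S k = S l := by simp [S, e]
    simp only [b, this]
  have hbb : ∀ l, b (b l) = b l := fun l => hbeq _ _ (hbψ l)
  have huniq : ∀ i j, b i = i → b j = j → ψ i = ψ j → i = j := fun i j hi hj e => by
    rw [← hi, ← hj, hbeq i j e]
  let cj : Γ → Γ₀ → Γ₀ := fun a h => ⟨a⁻¹ * h * a, conj_sub a h⟩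
  have hent : ∀ a (h : Γ₀) k l, (ρ a : Matrix (Fin r) (Fin r) ℂ) k l ≠ 0 →
      ψ k h = ψ l (cj a h) := by
    intro a h k l hkl
    have e : ρ h * ρ a = ρ a * ρ (cj a h) := by
      rw [← map_mul, ← map_mul]
      congr 1
      simp only [cj]
      group
    have h1 := congrFun (congrFun (congrArg Subtype.val e) k) l
    rw [Matrix.SpecialLinearGroup.coe_mul, Matrix.SpecialLinearGroup.coe_mul, Matrix.mul_apply,
      Matrix.mul_apply, Finset.sum_eq_single k (fun j _ hj => by rw [hd h h.2 (Ne.symm hj), zero_mul])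
      (by simp), Finset.sum_eq_single l (fun j _ hj => by
        rw [hd _ (cj a h).2 hj, mul_zero]) (by simp), mul_comm] at h1
    exact Units.ext (mul_left_cancel₀ hkl h1)
  have hex : ∀ a l, ∃ k, (ρ a : Matrix (Fin r) (Fin r) ℂ) k l ≠ 0 := by
    intro a l
    by_contra hno
    push Not at hno
    have h2 := Matrix.SpecialLinearGroup.det_coe (ρ a)
    rw [Matrix.det_eq_zero_of_column_eq_zero l hno] at h2
    exact zero_ne_one h2
  choose k hk using hex
  let s : Γ → Fin r → Fin r := fun a j => if b j = j then b (k a j) else j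
  have hsb : ∀ a j, b j = j → b (s a j) = s a j := fun a j hj => by simp [s, hj, hbb]
  have hsψ : ∀ a j, b j = j → ∀ h, ψ (s a j) h = ψ j (cj a h) := fun a j hj h => by
    simp only [s, if_pos hj, hbψ]
    exact hent a h _ _ (hk a j)
  have hs1 : ∀ j, s 1 j = j := by
    intro j
    by_cases hj : b j = j
    · refine huniq _ _ (hsb 1 j hj) hj (MonoidHom.ext fun h => ?_)
      rw [hsψ 1 j hj]
      congr 1
      exact Subtype.ext (by simp [cj])
    · simp [s, hj]
  have hsm : ∀ a c j, s (a * c) j = s a (s c j) := by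
    intro a c j
    by_cases hj : b j = j
    · refine huniq _ _ (hsb _ j hj) (hsb _ _ (hsb c j hj)) (MonoidHom.ext fun h => ?_)
      rw [hsψ _ j hj, hsψ a _ (hsb c j hj), hsψ c j hj]
      congr 1
      exact Subtype.ext (by simp only [cj]; group)
    · simp [s, hj]
  let σ : Γ →* Equiv.Perm (Fin r) :=
    MonoidHom.mk' (fun a => ⟨s a, s a⁻¹, fun j => by rw [← hsm, inv_mul_cancel, hs1],
      fun j => by rw [← hsm, mul_inv_cancel, hs1]⟩) fun a c => Equiv.ext (hsm a c)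
  let χ : Γ₀ →* (Fin r → ℂˣ) :=
    { toFun := fun h j => if b j = j then ψ j h else 1
      map_one' := funext fun j => by simp
      map_mul' := fun g h => funext fun j => by
        show _ = (if b j = j then ψ j g else 1) * (if b j = j then ψ j h else 1)
        split_ifs <;> simp }
  refine ⟨b, σ, χ, fun a t => Units.ext ?_, fun h => Units.ext ?_, fun a h j => ?_, fun h => ?_,
    fun h j hj => if_neg (hj j)⟩
  · ext x y
    simp only [Units.val_mul, dg_val, toU_val, Matrix.diagonal_mul, Matrix.mul_diagonal]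
    by_cases e : (ρ a : Matrix (Fin r) (Fin r) ℂ) x y = 0
    · simp [e]
    · have : b x = s a (b y) := by
        refine huniq _ _ (hbb x) (hsb a _ (hbb y)) (MonoidHom.ext fun h => ?_)
        rw [hbψ, hsψ a _ (hbb y), hbψ]
        exact hent a h x y e
      show (t (b x) : ℂ) * _ = _ * (t (s a (b y)) : ℂ)
      rw [this, mul_comm]
  · rw [dg_val, toU_val, ← (hd h h.2).diagonal_diag]
    congr 1
    funext l
    show (ρ h : Matrix (Fin r) (Fin r) ℂ) l l = ((if b (b l) = b l then ψ (b l) h else 1 : ℂˣ) : ℂ)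
    rw [if_pos (hbb l), hbψ]
    rfl
  · show (if b j = j then ψ j (cj a h) else 1) = if b (s a j) = s a j then ψ (s a j) h else 1
    by_cases hj : b j = j
    · rw [if_pos hj, if_pos (hsb a j hj), hsψ a j hj]
    · simp [s, hj]
  · refine Equiv.ext fun j => ?_
    show s h j = j
    by_cases hj : b j = j
    · have hkj : k h j = j := by
        by_contra e
        exact hk h j (hd h h.2 e)
      simp [s, hj, hkj]
    · simp [s, hj]

/-- The averaged cocycle and its root. -/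
theorem exists_twist (ρ : Γ →* Matrix.SpecialLinearGroup (Fin r) ℂ) (Γ₀ : Subgroup Γ) [Γ₀.Normal]
    [Γ₀.FiniteIndex] (b : Fin r → Fin r) (σ : Γ →* Equiv.Perm (Fin r)) (χ : Γ₀ →* (Fin r → ℂˣ))
    (hcov : ∀ a (h : Γ₀) j, χ ⟨a⁻¹ * h * a, conj_sub a h⟩ j = χ h (σ a j))
    (hswap : ∀ a t, Dg b t * toU ρ a = toU ρ a * Dg b (t ∘ σ a))
    (hval : ∀ h : Γ₀, toU ρ h = Dg b (χ h)) :
    ∃ x : Γ → Fin r → ℂˣ,
      Coc σ (fun a j => x a j ^ Γ₀.index) ∧
      (∀ a c, ∃ ε : Fin r → ℂˣ, ε ^ Γ₀.index = 1 ∧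
        (toU ρ a * (Dg b (x a))⁻¹) * (toU ρ c * (Dg b (x c))⁻¹) =
          toU ρ (a * c) * (Dg b (x (a * c)))⁻¹ * Dg b ε) ∧
      (∀ h : Γ₀, ∃ ε : Fin r → ℂˣ, ε ^ Γ₀.index = 1 ∧ toU ρ h * (Dg b (x h))⁻¹ = Dg b ε) ∧
      ∀ (h : Γ₀) j, x h j ^ Γ₀.index = χ h j ^ Γ₀.index := by
  classical
  let n := Γ₀.index
  have hn : 0 < n := Nat.pos_of_ne_zero Subgroup.FiniteIndex.index_ne_zero
  have := Fintype.ofFinite (Γ ⧸ Γ₀)
  let hq : Γ ⧸ Γ₀ → Γ → Γ₀ := fun q a =>
    ⟨(q * (a : Γ ⧸ Γ₀)).out⁻¹ * q.out * a, (QuotientGroup.eq_one_iff _).1 (by simp)⟩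
  let y : Γ → Fin r → ℂˣ := fun a j => ∏ q, χ (hq q a) j
  have hy : Coc σ y := by
    intro a c j
    have e : ∀ q, hq q (a * c) = hq (q * (a : Γ ⧸ Γ₀)) c *
        ⟨c⁻¹ * (hq q a : Γ) * c, conj_sub c _⟩ := fun q => Subtype.ext (by
      simp only [hq, Subgroup.coe_mul, QuotientGroup.mk_mul, mul_assoc q]
      group)
    simp only [y, e, map_mul, Pi.mul_apply, hcov, Finset.prod_mul_distrib]
    rw [mul_comm]
    congr 1
    exact Equiv.prod_comp (Equiv.mulRight (a : Γ ⧸ Γ₀)) fun q => χ (hq q c) j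
  have hyh : ∀ (h : Γ₀) j, y h j = χ h j ^ n := by
    intro h j
    have e : ∀ q, hq q h = h := fun q => Subtype.ext (by
      simp only [hq, (QuotientGroup.eq_one_iff (h : Γ)).2 h.2, mul_one]
      group)
    simp only [y, e, Finset.prod_const, Finset.card_univ]
    rw [← Nat.card_eq_fintype_card]
    rfl
  have hroot : ∀ z : ℂˣ, ∃ w : ℂˣ, w ^ n = z := by
    intro z
    obtain ⟨w, hw⟩ := IsAlgClosed.exists_pow_nat_eq (z : ℂ) hn
    have hw0 : w ≠ 0 := by
      rintro rfl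
      rw [zero_pow hn.ne'] at hw
      exact z.ne_zero hw.symm
    exact ⟨Units.mk0 w hw0, Units.ext (by simpa using hw)⟩
  choose root hroot using hroot
  let x : Γ → Fin r → ℂˣ := fun a j => root (y a j)
  have hxy : ∀ a j, x a j ^ n = y a j := fun a j => hroot _
  refine ⟨x, fun a c j => ?_, fun a c => ?_, fun h => ?_, fun h j => (hxy _ j).trans (hyh h j)⟩
  · show x (a * c) j ^ n = x a (σ c j) ^ n * x c j ^ n
    rw [hxy, hxy, hxy, hy]
  · refine ⟨x (a * c) * (x a ∘ σ c)⁻¹ * (x c)⁻¹, funext fun j => ?_, ?_⟩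
    · show (x (a * c) j * (x a (σ c j))⁻¹ * (x c j)⁻¹) ^ n = 1
      rw [mul_pow, mul_pow, inv_pow, inv_pow, hxy, hxy, hxy, hy, mul_inv_cancel_comm,
        mul_inv_cancel]
    · have e : (Dg b (x a))⁻¹ * toU ρ c = toU ρ c * Dg b ((x a)⁻¹ ∘ σ c) := by
        rw [← map_inv, hswap]
      calc toU ρ a * (Dg b (x a))⁻¹ * (toU ρ c * (Dg b (x c))⁻¹)
          = toU ρ a * ((Dg b (x a))⁻¹ * toU ρ c) * (Dg b (x c))⁻¹ := by simp only [mul_assoc]
        _ = toU ρ (a * c) * (Dg b ((x a)⁻¹ ∘ σ c) * Dg b (x c)⁻¹) := by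
          rw [e, map_mul, map_inv]; simp only [mul_assoc]
        _ = _ := by
          rw [← map_inv (Dg b) (x (a * c)), mul_assoc, ← map_mul, ← map_mul]
          congr 2
          funext j
          simp [mul_assoc]
  · refine ⟨χ h * (x h)⁻¹, funext fun j => ?_, ?_⟩
    · show (χ h j * (x h j)⁻¹) ^ n = 1
      rw [mul_pow, inv_pow, hxy, hyh, mul_inv_cancel]
    · rw [hval, map_mul, map_inv]

/-- The finite group carrying the twisted representation. -/
def twistGroup (ρ : Γ →* Matrix.SpecialLinearGroup (Fin r) ℂ) (b : Fin r → Fin r)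
    (x : Γ → Fin r → ℂˣ) (n : ℕ) (G : Subgroup Γ) : Set (Matrix (Fin r) (Fin r) ℂ)ˣ :=
  {u | ∃ a ∈ G, ∃ ε : Fin r → ℂˣ, ε ^ n = 1 ∧ u = toU ρ a * (Dg b (x a))⁻¹ * Dg b ε}

end Vale.Agent.P002.Solv
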