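import Vale.Agent.P002.Solv.Rep
import Vale.Agent.P002.Solv.Jordan
import Vale.Agent.P002.Solv.Twist

/-!
# P002: one subgroup of finite index is diagonal in all semisimple representations with virtually
solvable image
-/

namespace Vale.Agent.P002.Solv

open Matrix Module

variable {Γ : Type} [Group Γ] {r : ℕ}

/-- The twisted elements over a subgroup form a finite subgroup. -/
theorem twist_subgroup (ρ : Γ →* Matrix.SpecialLinearGroup (Fin r) ℂ) (Γ₀ : Subgroup Γ)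
    [Γ₀.Normal] [Γ₀.FiniteIndex] (b : Fin r → Fin r) (σ : Γ →* Equiv.Perm (Fin r))
    (hswap : ∀ a t, Dg b t * toU ρ a = toU ρ a * Dg b (t ∘ σ a)) (x : Γ → Fin r → ℂˣ)
    (hmul : ∀ a c, ∃ ε : Fin r → ℂˣ, ε ^ Γ₀.index = 1 ∧
        (toU ρ a * (Dg b (x a))⁻¹) * (toU ρ c * (Dg b (x c))⁻¹) =
          toU ρ (a * c) * (Dg b (x (a * c)))⁻¹ * Dg b ε)
    (hsub : ∀ h : Γ₀, ∃ ε : Fin r → ℂˣ, ε ^ Γ₀.index = 1 ∧ toU ρ h * (Dg b (x h))⁻¹ = Dg b ε)
    (m : ℕ) (hm : 0 < m) (hnm : Γ₀.index ∣ m) (G : Subgroup Γ) :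
    ∃ F : Subgroup (Matrix (Fin r) (Fin r) ℂ)ˣ, Finite F ∧ Nat.card F ≤ Γ₀.index * m ^ r ∧
      ∀ u, u ∈ F ↔ u ∈ twistGroup ρ b x m G := by
  classical
  let n := m
  have hn : 0 < n := hm
  have hlift : ∀ ε : Fin r → ℂˣ, ε ^ Γ₀.index = 1 → ε ^ n = 1 := fun ε h => by
    obtain ⟨t, ht⟩ := hnm
    show ε ^ m = 1
    rw [ht, pow_mul, h, one_pow]
  replace hmul : ∀ a c, ∃ ε : Fin r → ℂˣ, ε ^ n = 1 ∧
      (toU ρ a * (Dg b (x a))⁻¹) * (toU ρ c * (Dg b (x c))⁻¹) =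
        toU ρ (a * c) * (Dg b (x (a * c)))⁻¹ * Dg b ε := fun a c => by
    obtain ⟨ε, h, e⟩ := hmul a c
    exact ⟨ε, hlift ε h, e⟩
  replace hsub : ∀ h : Γ₀, ∃ ε : Fin r → ℂˣ, ε ^ n = 1 ∧
      toU ρ h * (Dg b (x h))⁻¹ = Dg b ε := fun h => by
    obtain ⟨ε, h', e⟩ := hsub h
    exact ⟨ε, hlift ε h', e⟩
  let f : Γ → (Matrix (Fin r) (Fin r) ℂ)ˣ := fun a => toU ρ a * (Dg b (x a))⁻¹
  have hmove : ∀ c ε, Dg b ε * f c = f c * Dg b (ε ∘ σ c) := by
    intro c ε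
    simp only [f, ← map_inv]
    rw [← mul_assoc, hswap, mul_assoc, mul_assoc, ← map_mul, ← map_mul, mul_comm]
  have hεσ : ∀ (c : Γ) (ε : Fin r → ℂˣ), ε ^ n = 1 → (ε ∘ σ c) ^ n = 1 := fun c ε h =>
    funext fun j => congrFun h (σ c j)
  obtain ⟨ε₁, hε₁, he₁⟩ : ∃ ε, ε ^ n = 1 ∧ f 1 = Dg b ε := hsub 1
  have hε₁' : (ε₁⁻¹) ^ n = 1 := by rw [inv_pow, hε₁, inv_one]
  have hinv : ∀ a, ∃ ε : Fin r → ℂˣ, ε ^ n = 1 ∧ (f a)⁻¹ = f a⁻¹ * Dg b ε := by
    intro a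
    obtain ⟨ε, hε, e⟩ := hmul a a⁻¹
    rw [mul_inv_cancel] at e
    refine ⟨(ε₁ * ε)⁻¹, by rw [inv_pow, mul_pow, hε₁, hε, one_mul, inv_one], ?_⟩
    rw [inv_eq_iff_mul_eq_one, ← mul_assoc, e]
    show f 1 * Dg b ε * _ = 1
    rw [he₁, ← map_mul, ← map_mul, mul_inv_cancel, map_one]
  let F : Subgroup (Matrix (Fin r) (Fin r) ℂ)ˣ :=
    { carrier := twistGroup ρ b x n G
      one_mem' := ⟨1, one_mem G, ε₁⁻¹, hε₁', by
        show 1 = f 1 * _
        rw [he₁, ← map_mul, mul_inv_cancel, map_one]⟩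
      mul_mem' := by
        rintro _ _ ⟨a, ha, ε, hε, rfl⟩ ⟨c, hc, δ, hδ, rfl⟩
        obtain ⟨η, hη, e⟩ := hmul a c
        refine ⟨a * c, mul_mem ha hc, η * (ε ∘ σ c) * δ,
          by rw [mul_pow, mul_pow, hη, hεσ c ε hε, hδ, mul_one, mul_one], ?_⟩
        show f a * Dg b ε * (f c * Dg b δ) = f (a * c) * _
        rw [map_mul, map_mul, ← mul_assoc, mul_assoc (f a), hmove, ← mul_assoc (f a), e]
        simp only [f, mul_assoc]
      inv_mem' := by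
        rintro _ ⟨a, ha, ε, hε, rfl⟩
        obtain ⟨δ, hδ, e⟩ := hinv a
        refine ⟨a⁻¹, inv_mem ha, (ε⁻¹ ∘ σ a⁻¹) * δ, by
          rw [mul_pow, hεσ a⁻¹ ε⁻¹ (by rw [inv_pow, hε, inv_one]), hδ, mul_one], ?_⟩
        show (f a * Dg b ε)⁻¹ = f a⁻¹ * _
        rw [_root_.mul_inv_rev, e, ← map_inv, ← mul_assoc, hmove, mul_assoc, ← map_mul] }
  let Eps := Fin r → rootsOfUnity n ℂ
  have : NeZero n := ⟨hn.ne'⟩
  have hcard : Nat.card Eps ≤ n ^ r := by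
    rw [Nat.card_pi, Finset.prod_const, Finset.card_univ, Fintype.card_fin]
    exact Nat.pow_le_pow_left (card_rootsOfUnity ℂ n) r
  have : Finite (Γ ⧸ Γ₀) := inferInstance
  let φ : (Γ ⧸ Γ₀) × Eps → F := fun q =>
    if h : q.1.out ∈ G ∨ ∃ g ∈ G, (g : Γ ⧸ Γ₀) = q.1 then
      (if hg : f q.1.out * Dg b (fun j => (q.2 j : ℂˣ)) ∈ twistGroup ρ b x n G then ⟨_, hg⟩ else 1)
    else 1
  have hφ : Function.Surjective φ := by
    rintro ⟨_, a, ha, ε, hε, rfl⟩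
    let q : Γ ⧸ Γ₀ := a
    let h : Γ₀ := ⟨q.out⁻¹ * a, QuotientGroup.eq.1 q.out_eq⟩
    obtain ⟨η, hη, eη⟩ := hmul q.out h
    obtain ⟨δ, hδ, eδ⟩ := hsub h
    let e : Fin r → ℂˣ := δ * η⁻¹ * ε
    have he : e ^ n = 1 := by
      show (δ * η⁻¹ * ε) ^ n = 1
      rw [mul_pow, mul_pow, hδ, inv_pow, hη, hε, inv_one, one_mul, one_mul]
    refine ⟨(q, fun j => ⟨e j, congrFun he j⟩), ?_⟩
    have heq : f q.out * Dg b e = f a * Dg b ε := by
      rw [map_mul, map_mul, map_inv, ← mul_assoc, ← mul_assoc,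
        show f q.out * Dg b δ = f q.out * f h by rw [show f h = Dg b δ from eδ],
        show f q.out * f h = f (q.out * h) * Dg b η from eη, mul_inv_cancel_right,
        show q.out * (h : Γ) = a from mul_inv_cancel_left _ _]
    refine Subtype.ext ?_
    simp only [φ]
    rw [dif_pos (Or.inr ⟨a, ha, rfl⟩), dif_pos]
    · exact heq
    · exact ⟨a, ha, ε, hε, heq⟩
  refine ⟨F, Finite.of_surjective φ hφ, ?_, fun u => Iff.rfl⟩
  refine (Nat.card_le_card_of_surjective φ hφ).trans ?_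
  rw [Nat.card_prod]
  exact Nat.mul_le_mul le_rfl hcard

/-- A basis of common eigenvectors gives a diagonalising element of SL. -/
theorem exists_conj_diag (ρ : Γ →* Matrix.SpecialLinearGroup (Fin r) ℂ) (K : Subgroup Γ)
    {ι : Type} [Fintype ι] (b0 : Basis ι ℂ (Fin r → ℂ))
    (hb : ∀ g ∈ K, ∀ i, ∃ c : ℂ, (ρ g : Matrix (Fin r) (Fin r) ℂ) *ᵥ b0 i = c • b0 i) :
    ∃ P : Matrix.SpecialLinearGroup (Fin r) ℂ, ∀ g ∈ K,
      ((P⁻¹ * ρ g * P : Matrix.SpecialLinearGroup (Fin r) ℂ) :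
        Matrix (Fin r) (Fin r) ℂ).IsDiag := by
  classical
  have hcard : Fintype.card ι = r := by
    rw [← Module.finrank_eq_card_basis b0, Module.finrank_fin_fun]
  let B : Basis (Fin r) ℂ (Fin r → ℂ) := b0.reindex (Fintype.equivFinOfCardEq hcard)
  let Q : Matrix (Fin r) (Fin r) ℂ := Matrix.of fun i k => B k i
  have hQ : Q = (Pi.basisFun ℂ (Fin r)).toMatrix B := by
    ext i k; simp [Q, Basis.toMatrix_apply]
  have hdet : Q.det ≠ 0 := by
    rw [hQ]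
    have := (Pi.basisFun ℂ (Fin r)).invertibleToMatrix B
    exact (Matrix.isUnit_det_of_invertible _).ne_zero
  obtain ⟨u, hu⟩ : ∃ u : ℂ, u ^ r * Q.det = 1 := by
    rcases Nat.eq_zero_or_pos r with hr | hr
    · subst hr; exact ⟨1, by simp⟩
    · obtain ⟨u, hu⟩ := IsAlgClosed.exists_pow_nat_eq (Q.det)⁻¹ hr
      exact ⟨u, by rw [hu, inv_mul_cancel₀ hdet]⟩
  let P : Matrix.SpecialLinearGroup (Fin r) ℂ :=
    ⟨u • Q, by rw [Matrix.det_smul, Fintype.card_fin, hu]⟩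
  refine ⟨P, fun g hg => ?_⟩
  choose c hc using fun k => hb g hg ((Fintype.equivFinOfCardEq hcard).symm k)
  have h1 : (ρ g : Matrix (Fin r) (Fin r) ℂ) * Q = Q * Matrix.diagonal c := by
    ext i k
    rw [Matrix.mul_diagonal, Matrix.mul_apply]
    have := congrFun (hc k) i
    simpa [Q, B, Matrix.mulVec, dotProduct, mul_comm] using this
  have h2 : ((P⁻¹ * ρ g * P : Matrix.SpecialLinearGroup (Fin r) ℂ) : Matrix (Fin r) (Fin r) ℂ) =
      Matrix.diagonal c := by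
    rw [mul_assoc, Matrix.SpecialLinearGroup.coe_mul, Matrix.SpecialLinearGroup.coe_mul]
    have : (ρ g : Matrix (Fin r) (Fin r) ℂ) * (P : Matrix (Fin r) (Fin r) ℂ) =
        (P : Matrix (Fin r) (Fin r) ℂ) * Matrix.diagonal c := by
      show (ρ g : Matrix (Fin r) (Fin r) ℂ) * (u • Q) = (u • Q) * _
      rw [Matrix.mul_smul, h1, Matrix.smul_mul]
    rw [this, ← mul_assoc, ← Matrix.SpecialLinearGroup.coe_mul, inv_mul_cancel,
      Matrix.SpecialLinearGroup.coe_one, one_mul]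
  rw [h2]
  exact Matrix.isDiag_diagonal c

/-- Subgroups of bounded index contain one normal subgroup of finite index. -/
theorem exists_deep [Group.FG Γ] (B : ℕ) : ∃ N : Subgroup Γ, N.Normal ∧ N.FiniteIndex ∧
    ∀ K : Subgroup Γ, K.FiniteIndex → K.index ≤ B → N ≤ K := by
  classical
  obtain ⟨S, hS⟩ := (Group.fg_def.1 (inferInstance : Group.FG Γ))
  let Hom := Σ m : Fin (B + 1), (Γ →* Equiv.Perm (Fin m))
  have hfinite : ∀ m : Fin (B + 1), Finite (Γ →* Equiv.Perm (Fin m)) := fun m =>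
    Finite.of_injective (fun f => fun a : S => f a) fun f f' h =>
      MonoidHom.eq_of_eqOn_dense hS fun a ha => congrFun h ⟨a, ha⟩
  have : Finite Hom := inferInstance
  refine ⟨⨅ q : Hom, q.2.ker, Subgroup.normal_iInf_normal fun q => MonoidHom.normal_ker _,
    Subgroup.finiteIndex_iInf fun q => ⟨by rw [Subgroup.index_ker]; exact Nat.card_pos.ne'⟩,
    fun K hK hKB => ?_⟩
  have hcard : Nat.card (Γ ⧸ K) = K.index := rfl
  have : Finite (Γ ⧸ K) := inferInstance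
  let e : Γ ⧸ K ≃ Fin K.index := (Finite.equivFin (Γ ⧸ K)).trans (finCongr hcard)
  let f : Γ →* Equiv.Perm (Fin K.index) :=
    e.permCongrHom.toMonoidHom.comp (MulAction.toPermHom Γ (Γ ⧸ K))
  refine (iInf_le (fun q : Hom => q.2.ker) ⟨⟨K.index, Nat.lt_succ_of_le hKB⟩, f⟩).trans ?_
  intro g hg
  have h1 : MulAction.toPermHom Γ (Γ ⧸ K) g = 1 :=
    e.permCongrHom.injective (by rw [map_one]; exact hg)
  have h2 := Equiv.congr_fun h1 ((1 : Γ) : Γ ⧸ K)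
  simp only [MulAction.toPermHom_apply, MulAction.toPerm_apply, Equiv.Perm.one_apply] at h2
  have h3 : g⁻¹ ∈ K := by
    rw [MulAction.Quotient.smul_coe, smul_eq_mul, mul_one] at h2
    simpa using QuotientGroup.eq.1 h2
  simpa using inv_mem h3

/-- The representation of a homomorphism into SL. -/
def toRep (ρ : Γ →* Matrix.SpecialLinearGroup (Fin r) ℂ) : Representation ℂ Γ (Fin r → ℂ) where
  toFun a := Matrix.toLin' (ρ a : Matrix (Fin r) (Fin r) ℂ)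
  map_one' := by simp; rfl
  map_mul' a b := by rw [map_mul, Matrix.SpecialLinearGroup.coe_mul, Matrix.toLin'_mul]; rfl

theorem toRep_apply (ρ : Γ →* Matrix.SpecialLinearGroup (Fin r) ℂ) (a : Γ) (v : Fin r → ℂ) :
    toRep ρ a v = (ρ a : Matrix (Fin r) (Fin r) ℂ) *ᵥ v := rfl

/-- One subgroup of finite index is diagonalisable in every semisimple representation with
virtually solvable image. -/
theorem diag_bound (Γ : Type) [Group Γ] [Group.FG Γ] (r : ℕ) :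
    ∃ Γ₁ : Subgroup Γ, Γ₁.Normal ∧ Γ₁.FiniteIndex ∧
      ∀ ρ : Γ →* Matrix.SpecialLinearGroup (Fin r) ℂ, SS ρ →
        (∃ H : Subgroup Γ, H.FiniteIndex ∧ Group.IsSolvable (H.map ρ)) →
        ∃ P : Matrix.SpecialLinearGroup (Fin r) ℂ, ∀ h ∈ Γ₁,
          ((P⁻¹ * ρ h * P : Matrix.SpecialLinearGroup (Fin r) ℂ) :
            Matrix (Fin r) (Fin r) ℂ).IsDiag := by
  classical
  obtain ⟨J, hJ⟩ := jordan r
  obtain ⟨Γ₁, hn₁, hf₁, hle⟩ := exists_deep (Γ := Γ) (r.factorial * J)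
  refine ⟨Γ₁, hn₁, hf₁, fun ρ hss ⟨H, hH, hsol⟩ => ?_⟩
  have hR : SSR (toRep ρ) := hss
  let K := H.normalCore
  have hdiag : ∀ (N : Subgroup Γ) [N.Normal],
      (∀ g ∈ N, ∀ h ∈ N, Commute (toRep ρ g) (toRep ρ h)) →
      ∃ P : Matrix.SpecialLinearGroup (Fin r) ℂ, ∀ h ∈ N,
        ((P⁻¹ * ρ h * P : Matrix.SpecialLinearGroup (Fin r) ℂ) :
          Matrix (Fin r) (Fin r) ℂ).IsDiag := by
    intro N _ hcomm
    obtain ⟨ι, _, b0, hb⟩ := exists_eigenbasis _ ((toRep ρ).comp N.subtype) rfl (hR.clifford N)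
      fun g h => hcomm g g.2 h h.2
    exact exists_conj_diag ρ N b0 fun g hg i => hb ⟨g, hg⟩ i
  have hKsol : ∃ n, ∀ g ∈ derivedSeries K n, ((toRep ρ).comp K.subtype) g = 1 := by
    obtain ⟨n, hn⟩ := hsol
    refine ⟨n, fun g hg => ?_⟩
    let f : K →* H.map ρ := (ρ.comp K.subtype).codRestrict _
      fun a => ⟨a, H.normalCore_le a.2, rfl⟩
    have h1 : f g = 1 :=
      Subgroup.mem_bot.1 (hn ▸ map_derivedSeries_le_derivedSeries f n ⟨g, hg, rfl⟩)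
    have h2 : ρ (g : Γ) = 1 := congrArg Subtype.val h1
    refine LinearMap.ext fun v => ?_
    show (ρ (g : Γ) : Matrix (Fin r) (Fin r) ℂ) *ᵥ v = v
    rw [h2]
    simp
  obtain ⟨H1, hH1, hcomm1⟩ :=
    virt_abelian _ ((toRep ρ).comp K.subtype) rfl (hR.clifford K) hKsol
  let K1 : Subgroup Γ := (H1.map K.subtype).normalCore
  have hK1f : K1.FiniteIndex := by
    have : (H1.map K.subtype).FiniteIndex := ⟨by
      rw [Subgroup.index_map_subtype]
      exact Nat.mul_ne_zero hH1.index_ne_zero Subgroup.FiniteIndex.index_ne_zero⟩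
    exact inferInstance
  obtain ⟨P, hP⟩ := hdiag K1 fun g hg h hh => by
    obtain ⟨g', hg', rfl⟩ := Subgroup.normalCore_le _ hg
    obtain ⟨h', hh', rfl⟩ := Subgroup.normalCore_le _ hh
    exact hcomm1 g' hg' h' hh'
  let ρ' : Γ →* Matrix.SpecialLinearGroup (Fin r) ℂ :=
    MonoidHom.mk' (fun a => P⁻¹ * ρ a * P) fun a c => by
      simp only [map_mul, mul_assoc, mul_inv_cancel_left]
  obtain ⟨b, σ, χ, hswap, hval, hcov, -, -⟩ := exists_blocks ρ' K1 hP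
  obtain ⟨x, -, hmul, hsub, -⟩ := exists_twist ρ' K1 b σ χ hcov hswap hval
  obtain ⟨F, hFfin, -, hF⟩ := twist_subgroup ρ' K1 b σ hswap x hmul hsub _
    (Nat.pos_of_ne_zero Subgroup.FiniteIndex.index_ne_zero) dvd_rfl σ.ker
  obtain ⟨A, hAJ, hA⟩ := hJ F
  let f : Γ → (Matrix (Fin r) (Fin r) ℂ)ˣ := fun a => toU ρ' a * (Dg b (x a))⁻¹
  have hcent : ∀ a ∈ σ.ker, ∀ t, Dg b t * toU ρ' a = toU ρ' a * Dg b t := fun a ha t => by
    rw [hswap, MonoidHom.mem_ker.1 ha]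
    rfl
  have hfc : ∀ a ∈ σ.ker, ∀ t, Dg b t * f a = f a * Dg b t := fun a ha t => by
    simp only [f, ← map_inv]
    rw [← mul_assoc, hcent a ha, mul_assoc, mul_assoc, ← map_mul, ← map_mul, mul_comm]
  have hfF : ∀ a ∈ σ.ker, ∀ ε : Fin r → ℂˣ, ε ^ K1.index = 1 → f a * Dg b ε ∈ F :=
    fun a ha ε hε => (hF _).2 ⟨a, ha, ε, hε, rfl⟩
  let InA : Γ → Prop := fun a => ∃ ha : a ∈ σ.ker, ∃ (ε : Fin r → ℂˣ) (hε : ε ^ K1.index = 1),
    (⟨f a * Dg b ε, hfF a ha ε hε⟩ : F) ∈ A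
  have hInA : ∀ a c, InA a → InA c → InA (a * c) := by
    rintro a c ⟨ha, ε, hε, hA1⟩ ⟨hc, δ, hδ, hA2⟩
    obtain ⟨η, hη, e⟩ := hmul a c
    refine ⟨mul_mem ha hc, η * ε * δ, by rw [mul_pow, mul_pow, hη, hε, hδ, mul_one, mul_one], ?_⟩
    convert mul_mem hA1 hA2 using 1
    refine Subtype.ext ?_
    show f (a * c) * Dg b (η * ε * δ) = f a * Dg b ε * (f c * Dg b δ)
    rw [map_mul, map_mul, ← mul_assoc (f a * Dg b ε), mul_assoc (f a) (Dg b ε), hfc c hc,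
      ← mul_assoc (f a), e]
    simp only [f, mul_assoc]
  have hinvA : ∀ a, InA a → InA a⁻¹ := by
    rintro a ⟨ha, ε, hε, hA1⟩
    obtain ⟨a', ha', ε', hε', e⟩ := (hF _).1 (inv_mem (hfF a ha ε hε))
    obtain ⟨η, hη, eη⟩ := hmul a a⁻¹
    obtain ⟨ε₁, hε₁, e₁⟩ := hsub 1
    rw [mul_inv_cancel] at eη
    refine ⟨inv_mem ha, (ε * η * ε₁)⁻¹, by
      rw [inv_pow, mul_pow, mul_pow, hε, hη, hε₁, mul_one, mul_one, inv_one], ?_⟩
    convert inv_mem hA1 using 1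
    refine Subtype.ext (eq_inv_of_mul_eq_one_left ?_)
    show f a⁻¹ * Dg b (ε * η * ε₁)⁻¹ * (f a * Dg b ε) = 1
    have h1 : f a * f a⁻¹ = Dg b (ε₁ * η) := by
      rw [show f a * f a⁻¹ = f 1 * Dg b η from eη, show f 1 = Dg b ε₁ from e₁, map_mul]
    have h2 : f a⁻¹ = (f a)⁻¹ * Dg b (ε₁ * η) := by rw [← h1, inv_mul_cancel_left]
    rw [h2]
    calc (f a)⁻¹ * Dg b (ε₁ * η) * Dg b (ε * η * ε₁)⁻¹ * (f a * Dg b ε)
        = (f a)⁻¹ * (Dg b ((ε₁ * η) * (ε * η * ε₁)⁻¹) * f a) * Dg b ε := by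
          rw [map_mul (Dg b) (ε₁ * η)]; group
      _ = (f a)⁻¹ * f a * (Dg b ((ε₁ * η) * (ε * η * ε₁)⁻¹) * Dg b ε) := by
          rw [hfc a ha]; simp only [mul_assoc]
      _ = 1 := by
          rw [inv_mul_cancel, one_mul, ← map_mul, show ε₁ * η * (ε * η * ε₁)⁻¹ * ε = 1 by
            rw [show ε * η * ε₁ = (ε₁ * η) * ε by ac_rfl, mul_inv, ← mul_assoc, mul_inv_cancel,
              one_mul, inv_mul_cancel], map_one]
  let L : Subgroup Γ :=
    { carrier := {a | InA a}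
      one_mem' := by
        obtain ⟨ε₁, hε₁, e₁⟩ := hsub 1
        refine ⟨one_mem _, ε₁⁻¹, by rw [inv_pow, hε₁, inv_one], ?_⟩
        convert one_mem A using 1
        refine Subtype.ext ?_
        show f 1 * Dg b ε₁⁻¹ = 1
        rw [show f 1 = Dg b ε₁ from e₁, ← map_mul, mul_inv_cancel, map_one]
      mul_mem' := fun {a c} ha hc => hInA a c ha hc
      inv_mem' := fun {a} ha => hinvA a ha }
  -- the index of L
  have hσfin : σ.ker.FiniteIndex := ⟨by rw [Subgroup.index_ker]; exact Nat.card_pos.ne'⟩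
  have hσ : σ.ker.index ≤ r.factorial := by
    rw [Subgroup.index_ker]
    refine (Nat.card_mono Set.finite_univ (Set.subset_univ _)).trans (le_of_eq ?_)
    rw [Nat.card_univ, Nat.card_eq_fintype_card, Fintype.card_perm, Fintype.card_fin]
  have hLle : L ≤ σ.ker := fun a ha => ha.1
  let M : Subgroup σ.ker := L.subgroupOf σ.ker
  let φ : σ.ker ⧸ M → F ⧸ A := fun q =>
    ((⟨f q.out * Dg b 1, hfF _ q.out.2 1 (one_pow _)⟩ : F) : F ⧸ A)
  have hφ : Function.Injective φ := by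
    intro q q' h
    rw [← q.out_eq, ← q'.out_eq]
    refine QuotientGroup.eq.2 ?_
    show InA ((q.out : Γ)⁻¹ * q'.out)
    have h1 := QuotientGroup.eq.1 h
    set a : Γ := (q.out : Γ) with ha_def
    set c : Γ := (q'.out : Γ) with hc_def
    obtain ⟨η, hη, e⟩ := hmul a (a⁻¹ * c)
    rw [mul_inv_cancel_left] at e
    refine ⟨mul_mem (inv_mem q.out.2) q'.out.2, η⁻¹, by rw [inv_pow, hη, inv_one], ?_⟩
    convert h1 using 1
    refine Subtype.ext ?_
    show f (a⁻¹ * c) * Dg b η⁻¹ = (f a * Dg b 1)⁻¹ * (f c * Dg b 1)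
    rw [map_one, mul_one, mul_one, show f c = f a * f (a⁻¹ * c) * (Dg b η)⁻¹ by
      rw [show f a * f (a⁻¹ * c) = f c * Dg b η from e, mul_inv_cancel_right], map_inv]
    group
  have hfinA : Finite (F ⧸ A) := inferInstance
  have hMfin : Finite (σ.ker ⧸ M) := Finite.of_injective φ hφ
  have hMfi : M.FiniteIndex := Subgroup.finiteIndex_of_finite_quotient
  have hMJ : M.index ≤ J := by
    rw [Subgroup.index]
    exact (Nat.card_le_card_of_injective φ hφ).trans hAJ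
  have hLi : L.index = M.index * σ.ker.index := (Subgroup.relIndex_mul_index hLle).symm
  have hLf : L.FiniteIndex := ⟨by
    rw [hLi]
    exact Nat.mul_ne_zero Subgroup.FiniteIndex.index_ne_zero hσfin.index_ne_zero⟩
  have hΓ₁L : Γ₁ ≤ L :=
    hle L hLf (by rw [hLi, mul_comm]; exact Nat.mul_le_mul hσ hMJ)
  refine hdiag Γ₁ fun g hg h hh => ?_
  obtain ⟨hg', ε, hε, hgA⟩ := hΓ₁L hg
  obtain ⟨hh', δ, hδ, hhA⟩ := hΓ₁L hh
  have hc : Commute (f g * Dg b ε) (f h * Dg b δ) := by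
    have := congrArg Subtype.val (hA _ hgA _ hhA).eq
    exact this
  have hD : ∀ a ∈ σ.ker, ∀ t, Commute (f a) (Dg b t) := fun a ha t => (hfc a ha t).symm
  have hDD : ∀ s t, Commute (Dg b s) (Dg b t) := fun s t => by
    show _ = _
    rw [← map_mul, ← map_mul, mul_comm]
  have hc2 : Commute (f g) (f h) := by
    have e1 : Commute (f g * Dg b ε) (f h) := by
      have := hc.mul_right ((((hD g hg' δ⁻¹).mul_left (hDD ε δ⁻¹))))
      rwa [mul_assoc (f h), ← map_mul, mul_inv_cancel, map_one, mul_one] at this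
    have := e1.mul_left ((hD h hh' ε⁻¹).symm)
    rwa [mul_assoc (f g), ← map_mul, mul_inv_cancel, map_one, mul_one] at this
  have hρ : ∀ a, toU ρ' a = f a * Dg b (x a) := fun a => by
    simp only [f, inv_mul_cancel_right]
  have hc3 : Commute (ρ' g) (ρ' h) := by
    have h4 : Commute (toU ρ' g) (toU ρ' h) := by
      rw [hρ, hρ]
      exact ((hc2.mul_right (hD g hg' _)).mul_left (((hD h hh' _).symm).mul_right (hDD _ _)))
    refine Subtype.ext ?_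
    rw [Matrix.SpecialLinearGroup.coe_mul, Matrix.SpecialLinearGroup.coe_mul]
    exact congrArg Units.val h4.eq
  have hc4 : Commute (ρ g) (ρ h) := by
    have h5 : Commute (P⁻¹ * ρ g * P) (P⁻¹ * ρ h * P) := hc3
    have h6 := congrArg (fun z => P * z * P⁻¹) h5.eq
    simp only [mul_assoc, mul_inv_cancel_left, mul_inv_cancel, mul_one] at h6
    exact h6
  refine LinearMap.ext fun v => ?_
  show (ρ g : Matrix (Fin r) (Fin r) ℂ) *ᵥ ((ρ h : Matrix (Fin r) (Fin r) ℂ) *ᵥ v) =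
    (ρ h : Matrix (Fin r) (Fin r) ℂ) *ᵥ ((ρ g : Matrix (Fin r) (Fin r) ℂ) *ᵥ v)
  rw [Matrix.mulVec_mulVec, Matrix.mulVec_mulVec, ← Matrix.SpecialLinearGroup.coe_mul,
    ← Matrix.SpecialLinearGroup.coe_mul, hc4.eq]

end Vale.Agent.P002.Solv
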