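import Vale.Agent.P002.Solv.Bound

/-!
# P002: semisimplicity from a diagonal subgroup of finite index, and under conjugation
-/

namespace Vale.Agent.P002.Solv

open Matrix Module Submodule

variable {Γ : Type} [Group Γ] {r : ℕ}

/-- Diagonal on a normal subgroup of finite index implies semisimple. -/
theorem ss_of_diag (ρ : Γ →* Matrix.SpecialLinearGroup (Fin r) ℂ) (N : Subgroup Γ) [N.Normal]
    [N.FiniteIndex] (hd : ∀ h ∈ N, (ρ h : Matrix (Fin r) (Fin r) ℂ).IsDiag) : SS ρ := by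
  classical
  intro W hW
  obtain ⟨J, hJ, hJmax⟩ : ∃ J : Finset (Fin r), W ⊓ Free.coord id (J : Set (Fin r)) = ⊥ ∧
      ∀ J' : Finset (Fin r), J ⊆ J' → W ⊓ Free.coord id (J' : Set (Fin r)) = ⊥ → J' ⊆ J := by
    obtain ⟨J, hJ, hmax⟩ := Finset.exists_max_image
      (Finset.univ.filter fun J : Finset (Fin r) => W ⊓ Free.coord id (J : Set (Fin r)) = ⊥)
      Finset.card ⟨∅, Finset.mem_filter.2 ⟨Finset.mem_univ _, eq_bot_iff.2 fun v hv =>
        (Submodule.mem_bot ℂ).2 (funext fun k => hv.2 k (by simp))⟩⟩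
    exact ⟨J, (Finset.mem_filter.1 hJ).2, fun J' hsub h => (Finset.eq_of_subset_of_card_le hsub
      (hmax J' (Finset.mem_filter.2 ⟨Finset.mem_univ _, h⟩))).ge⟩
  let C := Free.coord id (J : Set (Fin r))
  have hc : IsCompl W C := by
    refine ⟨disjoint_iff.2 hJ, codisjoint_iff.2 (eq_top_iff.2 ?_)⟩
    rw [← (Pi.basisFun ℂ (Fin r)).span_eq, span_le]
    rintro _ ⟨k, rfl⟩
    by_cases hk : k ∈ J
    · refine mem_sup_right fun i hi => ?_
      have : i ≠ k := fun e => hi (e ▸ hk)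
      simp [Pi.basisFun_apply, this]
    have hne : W ⊓ Free.coord id ↑(insert k J) ≠ ⊥ := fun h =>
      hk (hJmax _ (Finset.subset_insert _ _) h (Finset.mem_insert_self _ _))
    obtain ⟨v, ⟨hvW, hvc⟩, hv0⟩ := Submodule.exists_mem_ne_zero_of_ne_bot hne
    have hvk : v k ≠ 0 := fun h0 => hv0 ((Submodule.mem_bot ℂ).1 (hJ ▸
      (⟨hvW, fun i hi => by
        rcases eq_or_ne i k with rfl | e
        · exact h0
        · exact hvc i (by simpa [e] using hi)⟩ : v ∈ W ⊓ Free.coord id ↑J)))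
    have h1 : v - v k • Pi.basisFun ℂ (Fin r) k ∈ C := fun i hi => by
      rcases eq_or_ne i k with rfl | e
      · simp [Pi.basisFun_apply]
      · simp [Pi.basisFun_apply, e, hvc i (by simpa [e] using hi)]
    have h2 : v k • Pi.basisFun ℂ (Fin r) k ∈ W ⊔ C := by
      rw [← sub_sub_cancel v (v k • Pi.basisFun ℂ (Fin r) k)]
      exact sub_mem (mem_sup_left hvW) (mem_sup_right h1)
    simpa [smul_smul, inv_mul_cancel₀ hvk] using smul_mem _ (v k)⁻¹ h2
  let R := toRep ρ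
  have hCN : ∀ h ∈ N, ∀ v ∈ C, R h v ∈ C := by
    intro h hh v hv
    rw [toRep_apply]
    refine Free.coord_invariant (fun a c hac => ?_) _ hv
    exact hd h hh hac
  let π : (Fin r → ℂ) →ₗ[ℂ] (Fin r → ℂ) := W.subtype.comp (W.projectionOnto C hc)
  have hπW : ∀ v, π v ∈ W := fun v => (W.projectionOnto C hc v).2
  have hπfix : ∀ v ∈ W, π v = v := fun v hv =>
    congrArg Subtype.val (Submodule.projectionOnto_apply_left hc ⟨v, hv⟩)
  have hπC : ∀ v ∈ C, π v = 0 := fun v hv =>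
    congrArg Subtype.val ((Submodule.projectionOnto_apply_eq_zero_iff hc).2 hv)
  have hπN : ∀ h ∈ N, ∀ v, π (R h v) = R h (π v) := by
    intro h hh v
    obtain ⟨w, hw, c, hc', rfl⟩ : ∃ w ∈ W, ∃ c ∈ C, w + c = v :=
      mem_sup.1 ((codisjoint_iff.1 hc.codisjoint).symm ▸ Submodule.mem_top)
    have h1 : R h w ∈ W := hW h w hw
    rw [map_add (R h), map_add π, map_add π, hπfix _ h1, hπC _ (hCN h hh c hc'), hπfix w hw,
      hπC c hc', add_zero, add_zero]
  have := Fintype.ofFinite (Γ ⧸ N)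
  let m : ℂ := (Fintype.card (Γ ⧸ N) : ℂ)
  have hm : m ≠ 0 := by
    show (Fintype.card (Γ ⧸ N) : ℂ) ≠ 0
    exact_mod_cast Fintype.card_ne_zero
  let p : (Fin r → ℂ) →ₗ[ℂ] (Fin r → ℂ) :=
    m⁻¹ • ∑ q : Γ ⧸ N, (R q.out).comp (π.comp (R q.out⁻¹))
  have hpW : ∀ v, p v ∈ W := fun v => by
    simp only [p, LinearMap.smul_apply, LinearMap.sum_apply, LinearMap.comp_apply]
    exact W.smul_mem _ (sum_mem fun q _ => hW _ _ (hπW _))
  have hpfix : ∀ v ∈ W, p v = v := fun v hv => by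
    have hterm : ∀ q : Γ ⧸ N, (R q.out) (π (R q.out⁻¹ v)) = v := fun q => by
      rw [hπfix _ (show R q.out⁻¹ v ∈ W from hW q.out⁻¹ v hv), rho_inv']
    simp only [p, LinearMap.smul_apply, LinearMap.sum_apply, LinearMap.comp_apply, hterm,
      Finset.sum_const, Finset.card_univ]
    rw [← Nat.cast_smul_eq_nsmul ℂ, smul_smul, inv_mul_cancel₀ hm, one_smul]
  have hpa : ∀ a v, p (R a v) = R a (p v) := by
    intro a v
    simp only [p, LinearMap.smul_apply, LinearMap.sum_apply, LinearMap.comp_apply, map_smul,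
      map_sum]
    congr 1
    rw [← Equiv.sum_comp (Equiv.mulLeft (a : Γ ⧸ N))]
    refine Finset.sum_congr rfl fun q _ => ?_
    let q' : Γ ⧸ N := (a : Γ ⧸ N) * q
    show R q'.out (π (R q'.out⁻¹ (R a v))) = R a (R q.out (π (R q.out⁻¹ v)))
    let h : Γ := q'.out⁻¹ * a * q.out
    have hh : h ∈ N := (QuotientGroup.eq_one_iff _).1 (by
      simp only [h, q', QuotientGroup.mk_mul, QuotientGroup.mk_inv, QuotientGroup.out_eq']
      group)
    rw [← rho_mul R q'.out⁻¹ a, show q'.out⁻¹ * a = h * q.out⁻¹ by simp only [h]; group,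
      rho_mul R h, hπN h hh, ← rho_mul R q'.out, ← rho_mul R a,
      show a * q.out = q'.out * h by simp only [h]; group]
  have hproj : LinearMap.IsProj W p := ⟨hpW, hpfix⟩
  refine ⟨LinearMap.ker p, fun g v hv => ?_, hproj.isCompl⟩
  show p (R g v) = 0
  rw [hpa, LinearMap.mem_ker.1 hv, map_zero]

/-- Semisimplicity is invariant under conjugation. -/
theorem ss_conj {ρ ρ' : Γ →* Matrix.SpecialLinearGroup (Fin r) ℂ}
    (P : Matrix.SpecialLinearGroup (Fin r) ℂ) (h : ∀ a, ρ' a = P * ρ a * P⁻¹) (hss : SS ρ) :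
    SS ρ' := by
  intro W hW
  have h1 : ∀ v, ((P⁻¹ : Matrix.SpecialLinearGroup (Fin r) ℂ) : Matrix (Fin r) (Fin r) ℂ) *ᵥ
      ((P : Matrix (Fin r) (Fin r) ℂ) *ᵥ v) = v := fun v => by
    rw [Matrix.mulVec_mulVec, ← Matrix.SpecialLinearGroup.coe_mul, inv_mul_cancel]
    simp
  have h2 : ∀ v, (P : Matrix (Fin r) (Fin r) ℂ) *ᵥ
      (((P⁻¹ : Matrix.SpecialLinearGroup (Fin r) ℂ) : Matrix (Fin r) (Fin r) ℂ) *ᵥ v) = v :=
    fun v => by
      rw [Matrix.mulVec_mulVec, ← Matrix.SpecialLinearGroup.coe_mul, mul_inv_cancel]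
      simp
  let e : (Fin r → ℂ) ≃ₗ[ℂ] (Fin r → ℂ) :=
    { Matrix.mulVecLin (P : Matrix (Fin r) (Fin r) ℂ) with
      invFun := fun v => ((P⁻¹ : Matrix.SpecialLinearGroup (Fin r) ℂ) : Matrix (Fin r) (Fin r) ℂ) *ᵥ v
      left_inv := h1
      right_inv := h2 }
  have hmove : ∀ a v, (ρ' a : Matrix (Fin r) (Fin r) ℂ) *ᵥ e v =
      e ((ρ a : Matrix (Fin r) (Fin r) ℂ) *ᵥ v) := fun a v => by
    show (ρ' a : Matrix (Fin r) (Fin r) ℂ) *ᵥ ((P : Matrix (Fin r) (Fin r) ℂ) *ᵥ v) =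
      (P : Matrix (Fin r) (Fin r) ℂ) *ᵥ ((ρ a : Matrix (Fin r) (Fin r) ℂ) *ᵥ v)
    rw [Matrix.mulVec_mulVec, Matrix.mulVec_mulVec, ← Matrix.SpecialLinearGroup.coe_mul,
      ← Matrix.SpecialLinearGroup.coe_mul, h a, inv_mul_cancel_right]
  obtain ⟨W', hW', hc⟩ := hss (W.comap e.toLinearMap) (fun a v hv => by
    show e _ ∈ W
    rw [← hmove]
    exact hW a _ hv)
  refine ⟨W'.map e.toLinearMap, ?_, ?_⟩
  · rintro a _ ⟨v, hv, rfl⟩
    exact ⟨_, hW' a v hv, (hmove a v).symm⟩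
  · have h3 := (Submodule.orderIsoMapComap e).isCompl hc
    rw [← Submodule.map_comap_eq_of_surjective e.surjective W]
    exact h3

end Vale.Agent.P002.Solv
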