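import Vale.Agent.P002.Solv.Bezout

/-!
# P002: integral models of representations of finite groups of bounded order
-/

namespace Vale.Agent.P002.Solv

open Matrix Module

/-- Representations of a finite group with algebraic entries have integral forms. -/
theorem lattice_model {G : Type} [Group G] [Finite G] {r : ℕ}
    (Φ : G →* Matrix (Fin r) (Fin r) ℂ) (hΦ : ∀ a i j, IsAlgebraic ℤ (Φ a i j)) :
    ∃ g : (Matrix (Fin r) (Fin r) ℂ)ˣ, ∀ a i j,
      IsIntegral ℤ ((((g⁻¹ : (Matrix (Fin r) (Fin r) ℂ)ˣ) : Matrix (Fin r) (Fin r) ℂ) * Φ a *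
        (g : Matrix (Fin r) (Fin r) ℂ)) i j) := by
  classical
  have := Fintype.ofFinite G
  let X : G × Fin r → Fin r → ℂ := fun q i => Φ q.1 i q.2
  obtain ⟨k, w, hli, -, -, hX, hw⟩ := exists_lattice_basis Finset.univ X (fun q i => hΦ q.1 i q.2)
    (fun q j hj => absurd (Finset.mem_univ j) hj)
  choose a ha haX using hX
  choose c hc hcw using hw
  have hspan : ⊤ ≤ Submodule.span ℂ (Set.range w) := by
    rw [← (Pi.basisFun ℂ (Fin r)).span_eq, Submodule.span_le]
    rintro _ ⟨j, rfl⟩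
    have e : Pi.basisFun ℂ (Fin r) j = X (1, j) := by
      funext i
      simp [X, Matrix.one_apply, Pi.single_apply]
    rw [e, haX]
    exact sum_mem fun t _ => Submodule.smul_mem _ _ (Submodule.subset_span ⟨t, rfl⟩)
  let B : Basis (Fin k) ℂ (Fin r → ℂ) := Basis.mk hli hspan
  have hk : k = r := by
    have := (Module.finrank_eq_card_basis B).symm
    simpa using this
  subst hk
  let Q : Matrix (Fin k) (Fin k) ℂ := (Pi.basisFun ℂ (Fin k)).toMatrix B
  have hQd : IsUnit Q := by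
    have := (Pi.basisFun ℂ (Fin k)).invertibleToMatrix B
    exact isUnit_of_invertible Q
  refine ⟨hQd.unit, fun b i j => ?_⟩
  -- the column of the image of a basis vector
  have hcol : ∀ t, ∃ e : Fin k → ℂ, (∀ i, IsIntegral ℤ (e i)) ∧ Φ b *ᵥ w t = ∑ i, e i • w i := by
    intro t
    refine ⟨fun i => ∑ q, c t q * a (b * q.1, q.2) i, fun i => IsIntegral.sum _ fun q _ =>
      (hc t q).mul (ha _ i), ?_⟩
    have hX' : ∀ q : G × Fin k, Φ b *ᵥ X q = X (b * q.1, q.2) := fun q => funext fun i => by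
      simp [X, Matrix.mulVec, dotProduct, Matrix.mul_apply]
    have hq : ∀ q : G × Fin k,
        Φ b *ᵥ (c t q • X q) = ∑ i, (c t q * a (b * q.1, q.2) i) • w i := fun q => by
      rw [Matrix.mulVec_smul, hX', haX, Finset.smul_sum]
      simp only [smul_smul]
    rw [hcw t, Matrix.mulVec_sum, Finset.sum_congr rfl fun q _ => hq q, Finset.sum_comm]
    simp only [Finset.sum_smul]
  choose e he hee using hcol
  have hmul : Φ b * Q = Q * Matrix.of fun i t => e t i := by
    ext x t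
    rw [Matrix.mul_apply, Matrix.mul_apply]
    have := congrFun (hee t) x
    simpa [Q, B, Basis.toMatrix_apply, Matrix.mulVec, dotProduct, mul_comm] using this
  rw [mul_assoc, show ((hQd.unit : (Matrix (Fin k) (Fin k) ℂ)ˣ) : Matrix (Fin k) (Fin k) ℂ) = Q
    from hQd.unit_spec, hmul, ← mul_assoc, hQd.val_inv_mul, one_mul]
  exact he j i

/-- A representation of a product of matrix algebras over a subfield, in a basis adapted to the
matrix units. -/
theorem pi_rep_form {r n : ℕ} (K : IntermediateField ℚ ℂ) (d : Fin n → ℕ) [∀ i, NeZero (d i)]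
    (Θ : (Π i, Matrix (Fin (d i)) (Fin (d i)) K) →ₐ[K] Matrix (Fin r) (Fin r) ℂ) :
    ∃ g : (Matrix (Fin r) (Fin r) ℂ)ˣ, ∀ A x y,
      ((g⁻¹ : (Matrix (Fin r) (Fin r) ℂ)ˣ).val * Θ A * g.val) x y = 0 ∨
        ∃ i k l, ((g⁻¹ : (Matrix (Fin r) (Fin r) ℂ)ˣ).val * Θ A * g.val) x y = ((A i k l : K) : ℂ) := by
  classical
  let E : ∀ i, Fin (d i) → Fin (d i) → Π i, Matrix (Fin (d i)) (Fin (d i)) K :=
    fun i k l => Pi.single i (Matrix.single k l 1)
  have hEE : ∀ i k l k' l', E i k l * E i k' l' = if l = k' then E i k l' else 0 := by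
    intro i k l k' l'
    simp only [E, ← Pi.single_mul]
    by_cases h : l = k'
    · subst h; simp
    · rw [if_neg h, Matrix.single_mul_single_of_ne _ _ _ _ h, Pi.single_zero]
  have hEE' : ∀ i i' k l k' l', i ≠ i' → E i k l * E i' k' l' = 0 := by
    intro i i' k l k' l' h
    funext j
    by_cases hj : j = i
    · subst hj; simp [E, h]
    · simp [E, hj]
  have hE1 : ∑ i, ∑ k, E i k k = 1 := by
    funext i
    rw [Finset.sum_apply, Finset.sum_eq_single i (fun j _ hj => by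
      simp [E, Ne.symm hj]) (by simp), Finset.sum_apply]
    simp only [E, Pi.single_eq_same, Pi.one_apply]
    refine Matrix.ext fun x y => ?_
    rw [Matrix.sum_apply]
    by_cases hxy : x = y
    · subst hxy; simp [Matrix.single_apply]
    · rw [Matrix.one_apply_ne hxy]
      exact Finset.sum_eq_zero fun k _ => by
        rw [Matrix.single_apply, if_neg fun h => hxy (h.1.symm.trans h.2)]
  let z : ∀ i, Fin (d i) := fun i => ⟨0, Nat.pos_of_ne_zero (NeZero.ne (d i))⟩
  let U : Fin n → Submodule ℂ (Fin r → ℂ) := fun i =>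
    LinearMap.range (Matrix.toLin' (Θ (E i (z i) (z i))))
  let v := fun i => Module.finBasis ℂ (U i)
  let w : (Σ i, Fin (finrank ℂ (U i)) × Fin (d i)) → Fin r → ℂ := fun q =>
    Θ (E q.1 q.2.2 (z q.1)) *ᵥ (v q.1 q.2.1 : Fin r → ℂ)
  have hfixU : ∀ i, ∀ x ∈ U i, Θ (E i (z i) (z i)) *ᵥ x = x := by
    rintro i _ ⟨y, rfl⟩
    simp only [Matrix.toLin'_apply, Matrix.mulVec_mulVec, ← map_mul, hEE, if_true]
  have hli : LinearIndependent ℂ w := by
    rw [Fintype.linearIndependent_iff]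
    intro c hc q
    obtain ⟨i, t, k⟩ := q
    have h1 := congrArg (fun x => Θ (E i (z i) k) *ᵥ x) hc
    simp only [Matrix.mulVec_sum, Matrix.mulVec_smul, Matrix.mulVec_zero, w,
      Matrix.mulVec_mulVec, ← map_mul] at h1
    rw [Fintype.sum_sigma, Finset.sum_eq_single i (fun j _ hj => Finset.sum_eq_zero fun p _ => by
      rw [hEE' i j _ _ _ _ (Ne.symm hj)]; simp) (by simp), Fintype.sum_prod_type] at h1
    have h2 : ∑ t', c ⟨i, t', k⟩ • (v i t' : Fin r → ℂ) = 0 := by
      rw [← h1]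
      refine Finset.sum_congr rfl fun t' _ => ?_
      rw [Finset.sum_eq_single k (fun l _ hl => by rw [hEE, if_neg (Ne.symm hl)]; simp) (by simp),
        hEE, if_pos rfl, hfixU i _ (v i t').2]
    exact Fintype.linearIndependent_iff.1 (v i).linearIndependent (fun t' => c ⟨i, t', k⟩)
      (Subtype.ext (by simpa using h2)) t
  have hspan : ⊤ ≤ Submodule.span ℂ (Set.range w) := by
    intro x _
    have hx : x = ∑ i, ∑ k, Θ (E i k (z i)) *ᵥ (Θ (E i (z i) k) *ᵥ x) := by
      simp only [Matrix.mulVec_mulVec, ← map_mul, hEE, if_true]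
      simp only [← Matrix.sum_mulVec, ← map_sum, hE1, map_one, Matrix.one_mulVec]
    rw [hx]
    refine sum_mem fun i _ => sum_mem fun k _ => ?_
    have hy : Θ (E i (z i) k) *ᵥ x ∈ U i := ⟨Θ (E i (z i) k) *ᵥ x, by
      simp only [Matrix.toLin'_apply, Matrix.mulVec_mulVec, ← map_mul, hEE, if_true]⟩
    have h2 := congrArg Subtype.val ((v i).sum_repr ⟨_, hy⟩)
    simp only [AddSubmonoidClass.coe_finsetSum, SetLike.val_smul] at h2
    rw [← h2, Matrix.mulVec_sum]
    refine sum_mem fun t _ => ?_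
    rw [Matrix.mulVec_smul]
    exact Submodule.smul_mem _ _ (Submodule.subset_span ⟨⟨i, t, k⟩, rfl⟩)
  let B0 := Basis.mk hli hspan
  have hcard : Fintype.card (Σ i, Fin (finrank ℂ (U i)) × Fin (d i)) = r := by
    rw [← Module.finrank_eq_card_basis B0, Module.finrank_fin_fun]
  let ε := Fintype.equivFinOfCardEq hcard
  let B : Basis (Fin r) ℂ (Fin r → ℂ) := B0.reindex ε
  let Q : Matrix (Fin r) (Fin r) ℂ := (Pi.basisFun ℂ (Fin r)).toMatrix B
  have hQu : IsUnit Q := by
    have := (Pi.basisFun ℂ (Fin r)).invertibleToMatrix B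
    exact isUnit_of_invertible Q
  refine ⟨hQu.unit, fun A x y => ?_⟩
  let coef : (Σ i, Fin (finrank ℂ (U i)) × Fin (d i)) →
      (Σ i, Fin (finrank ℂ (U i)) × Fin (d i)) → ℂ := fun p q =>
    if h : q.1 = p.1 ∧ (q.2.1 : ℕ) = p.2.1 then
      ((A p.1 p.2.2 (Fin.cast (congrArg d h.1) q.2.2) : K) : ℂ) else 0
  have hact : ∀ q, Θ A *ᵥ w q = ∑ p, coef p q • w p := by
    rintro ⟨i, t, l⟩
    have hprod : A * E i l (z i) = ∑ k, A i k l • E i k (z i) := by
      funext j
      rw [Finset.sum_apply]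
      by_cases hj : j = i
      · subst hj
        ext x' y'
        rw [Matrix.sum_apply]
        simp only [E, Pi.mul_apply, Pi.single_eq_same, Pi.smul_apply, Matrix.smul_apply,
          smul_eq_mul, Matrix.single_apply, Matrix.mul_apply]
        by_cases hy : z j = y' <;> simp [hy]
      · simp [E, hj]
    show Θ A *ᵥ (Θ (E i l (z i)) *ᵥ _) = _
    rw [Matrix.mulVec_mulVec, ← map_mul, hprod, map_sum, Matrix.sum_mulVec,
      Fintype.sum_sigma, Finset.sum_eq_single i (fun j _ hj => Finset.sum_eq_zero fun p _ => by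
        simp only [coef]
        rw [dif_neg fun h => hj h.1.symm, zero_smul]) (by simp), Fintype.sum_prod_type,
      Finset.sum_eq_single t (fun t' _ ht => Finset.sum_eq_zero fun p _ => by
        simp only [coef]
        rw [dif_neg fun h => ht (Fin.ext h.2.symm), zero_smul]) (by simp)]
    refine Finset.sum_congr rfl fun k _ => ?_
    simp only [coef, w, map_smul]
    simp only [and_self, dite_true, Fin.cast_eq_self, Matrix.smul_mulVec]
    rfl
  have hmul : Θ A * Q = Q * Matrix.of fun i j => coef (ε.symm i) (ε.symm j) := by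
    ext i j
    rw [Matrix.mul_apply, Matrix.mul_apply]
    have h := congrFun (hact (ε.symm j)) i
    rw [← Equiv.sum_comp ε.symm, Matrix.mulVec, dotProduct, Finset.sum_apply] at h
    simp only [Q, B, B0, Basis.toMatrix_apply, Pi.basisFun_repr, Basis.coe_reindex,
      Function.comp_apply, Basis.coe_mk, Matrix.of_apply, Pi.smul_apply, smul_eq_mul] at h ⊢
    exact h.trans (Finset.sum_congr rfl fun k _ => mul_comm _ _)
  rw [mul_assoc, show ((hQu.unit : (Matrix (Fin r) (Fin r) ℂ)ˣ) : Matrix (Fin r) (Fin r) ℂ) = Q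
    from hQu.unit_spec, hmul, ← mul_assoc, hQu.val_inv_mul, one_mul, Matrix.of_apply]
  simp only [coef]
  split_ifs with h
  · exact Or.inr ⟨_, _, _, rfl⟩
  · exact Or.inl rfl

/-- Finitely many algebraic integers suffice for all representations of a finite group. -/
theorem models (G : Type) [Group G] [Finite G] (r : ℕ) :
    ∃ S : Set ℂ, S.Finite ∧ (∀ z ∈ S, IsIntegral ℤ z) ∧
      ∀ Φ : G →* Matrix (Fin r) (Fin r) ℂ, ∃ g : (Matrix (Fin r) (Fin r) ℂ)ˣ, ∀ a i j,
        (((g⁻¹ : (Matrix (Fin r) (Fin r) ℂ)ˣ) : Matrix (Fin r) (Fin r) ℂ) * Φ a *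
          (g : Matrix (Fin r) (Fin r) ℂ)) i j ∈ S := by
  classical
  let K := algebraicClosure ℚ ℂ
  have : IsAlgClosed K := (algebraicClosure.isAlgClosure ℚ ℂ).isAlgClosed
  have : NeZero (Nat.card G : K) := ⟨by exact_mod_cast Nat.card_pos.ne'⟩
  have := Fintype.ofFinite G
  have : IsSemisimpleRing (MonoidAlgebra K G) := inferInstance
  obtain ⟨n, d, hd, ⟨e⟩⟩ :=
    IsSemisimpleRing.exists_algEquiv_pi_matrix_of_isAlgClosed K (MonoidAlgebra K G)
  -- the algebraic values
  let val : G → Π i, Matrix (Fin (d i)) (Fin (d i)) K := fun a => e (MonoidAlgebra.of K G a)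
  let S₀ : Set ℂ := insert 0 (⋃ a, ⋃ i, ⋃ k, ⋃ l, {((val a i k l : K) : ℂ)})
  have hS₀ : S₀.Finite := (Set.finite_iUnion fun a => Set.finite_iUnion fun i => Set.finite_iUnion
    fun k => Set.finite_iUnion fun l => Set.finite_singleton _).insert 0
  have hS₀alg : ∀ z ∈ S₀, IsAlgebraic ℤ z := by
    rintro z (rfl | hz)
    · exact isAlgebraic_zero
    · simp only [Set.mem_iUnion, Set.mem_singleton_iff] at hz
      obtain ⟨a, i, k, l, rfl⟩ := hz
      have h1 : IsAlgebraic ℚ ((val a i k l : K) : ℂ) := mem_algebraicClosure_iff.1 (SetLike.coe_mem _)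
      exact (IsFractionRing.isAlgebraic_iff ℤ ℚ ℂ).2 h1
  let M : Set (G →* Matrix (Fin r) (Fin r) ℂ) := {Φ | ∀ a i j, Φ a i j ∈ S₀}
  have hM : M.Finite := by
    have hfun : {f : G → Fin r → Fin r → ℂ | ∀ a i j, f a i j ∈ S₀}.Finite := by
      refine (Set.Finite.pi fun _ : G => Set.Finite.pi fun _ : Fin r => Set.Finite.pi
        fun _ : Fin r => hS₀).subset fun f hf a _ i _ j _ => hf a i j
    exact hfun.preimage (DFunLike.coe_injective.injOn) |>.subset fun Φ hΦ => hΦ
  choose gm hgm using fun Φ : M => lattice_model Φ.1 fun a i j => hS₀alg _ (Φ.2 a i j)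
  have : Finite M := hM.to_subtype
  let S : Set ℂ := ⋃ Φ : M, ⋃ a, ⋃ i, ⋃ j,
    {(((gm Φ)⁻¹ : (Matrix (Fin r) (Fin r) ℂ)ˣ).val * Φ.1 a * (gm Φ).val) i j}
  refine ⟨S, Set.finite_iUnion fun Φ => Set.finite_iUnion fun a => Set.finite_iUnion fun i =>
    Set.finite_iUnion fun j => Set.finite_singleton _, fun z hz => ?_, fun Φ => ?_⟩
  · simp only [S, Set.mem_iUnion, Set.mem_singleton_iff] at hz
    obtain ⟨Φ, a, i, j, rfl⟩ := hz
    exact hgm Φ a i j
  suffices h : ∃ g : (Matrix (Fin r) (Fin r) ℂ)ˣ, ∀ a i j,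
      ((g⁻¹ : (Matrix (Fin r) (Fin r) ℂ)ˣ).val * Φ a * g.val) i j ∈ S₀ by
    obtain ⟨g, hg⟩ := h
    let Φ' : G →* Matrix (Fin r) (Fin r) ℂ :=
      { toFun := fun a => (g⁻¹ : (Matrix (Fin r) (Fin r) ℂ)ˣ).val * Φ a * g.val
        map_one' := by simp
        map_mul' := fun a b => by simp [mul_assoc] }
    refine ⟨g * gm ⟨Φ', hg⟩, fun a i j => ?_⟩
    simp only [S, Set.mem_iUnion, Set.mem_singleton_iff]
    refine ⟨⟨Φ', hg⟩, a, i, j, ?_⟩
    rw [_root_.mul_inv_rev, Units.val_mul, Units.val_mul]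
    simp only [Φ', MonoidHom.coe_mk, OneHom.coe_mk, mul_assoc]
  obtain ⟨g, hg⟩ := pi_rep_form K d ((MonoidAlgebra.lift K (Matrix (Fin r) (Fin r) ℂ) G Φ).comp
    e.symm.toAlgHom)
  refine ⟨g, fun a i j => ?_⟩
  have h := hg (val a) i j
  rw [show ((MonoidAlgebra.lift K (Matrix (Fin r) (Fin r) ℂ) G Φ).comp e.symm.toAlgHom) (val a) =
    Φ a by simp [val]] at h
  rcases h with h | ⟨i', k, l, h⟩
  · rw [h]; exact Set.mem_insert _ _
  · rw [h]
    exact Set.mem_insert_of_mem _ (Set.mem_iUnion.2 ⟨a, Set.mem_iUnion.2 ⟨i',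
      Set.mem_iUnion.2 ⟨k, Set.mem_iUnion.2 ⟨l, rfl⟩⟩⟩⟩)

/-- The same for all finite subgroups of bounded order. -/
theorem models_bounded (Bd r : ℕ) :
    ∃ S : Set ℂ, S.Finite ∧ (∀ z ∈ S, IsIntegral ℤ z) ∧
      ∀ F : Subgroup (Matrix (Fin r) (Fin r) ℂ)ˣ, Finite F → Nat.card F ≤ Bd →
        ∃ g : (Matrix (Fin r) (Fin r) ℂ)ˣ, ∀ u ∈ F, ∀ i j,
          (((g⁻¹ * u * g : (Matrix (Fin r) (Fin r) ℂ)ˣ)) : Matrix (Fin r) (Fin r) ℂ) i j ∈ S := by
  classical
  let GU := (Matrix (Fin r) (Fin r) ℂ)ˣ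
  let Tab := Σ m : Fin (Bd + 1), Fin m → Fin m → Fin m
  let Real : Tab → Subgroup GU → Prop := fun T F =>
    ∃ e : F ≃ Fin T.1, ∀ x y, e (x * y) = T.2 (e x) (e y)
  choose pick hpick using fun T : {T : Tab // ∃ F : Subgroup GU, Finite F ∧ Real T F} => T.2
  choose S hSf hSi hS using fun T : {T : Tab // ∃ F : Subgroup GU, Finite F ∧ Real T F} => by
    have := (hpick T).1
    exact models (pick T) r
  refine ⟨⋃ T, S T, Set.finite_iUnion hSf, fun z hz => ?_, fun F hF hc => ?_⟩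
  · obtain ⟨T, hT⟩ := Set.mem_iUnion.1 hz
    exact hSi T z hT
  let e : F ≃ Fin (Nat.card F) := Finite.equivFin F
  let T : Tab := ⟨⟨Nat.card F, Nat.lt_succ_of_le hc⟩, fun i j => e (e.symm i * e.symm j)⟩
  let TT : {T : Tab // ∃ F : Subgroup GU, Finite F ∧ Real T F} :=
    ⟨T, F, hF, e, fun x y => by simp [T]⟩
  obtain ⟨e₀, he₀⟩ := (hpick TT).2
  let f : pick TT ≃* F :=
    { (e₀.trans e.symm : pick TT ≃ F) with
      map_mul' := fun x y => by
        show e.symm (e₀ (x * y)) = e.symm (e₀ x) * e.symm (e₀ y)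
        rw [he₀]
        exact e.symm_apply_apply _ }
  obtain ⟨g, hg⟩ := hS TT (((Units.coeHom _).comp F.subtype).comp f.toMonoidHom)
  refine ⟨g, fun u hu i j => Set.mem_iUnion.2 ⟨TT, ?_⟩⟩
  have h1 := hg (f.symm ⟨u, hu⟩) i j
  simpa [Units.val_mul] using h1

end Vale.Agent.P002.Solv
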