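import Vale.Agent.P002.Torus

/-!
# P002: the torus of twists with prescribed torsion relations
-/

namespace Vale.Agent.P002.Solv

open Module

variable {Γ : Type} [Group Γ] {r s : ℕ}

/-- The twists with the same relation values form torsion times a torus. -/
theorem exists_param [Group.FG Γ] (σ : Γ →* Equiv.Perm (Fin r)) (b₀ : Fin r → Fin r)
    (γ : Fin s → Γ) :
    ∃ E : ℕ, 0 < E ∧ ∀ (N : ℕ) (x₀ : Γ → Fin r → ℂˣ),
      (∀ a c k, x₀ (a * c) k ^ N = x₀ a (σ c k) ^ N * x₀ c k ^ N) →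
      (∀ a, (∏ k, x₀ a (b₀ k)) ^ N = 1) →
      (∀ i k, x₀ (γ i ^ per σ (γ i) k) k ^ N = 1) →
      ∃ (n : ℕ) (ζ : Γ → Fin r → ℂˣ) (e : Γ → Fin r → Fin n → ℤ) (w₀ : Fin n → ℂˣ),
        (∀ a k, ζ a k ^ (E * N) = 1) ∧
        (∀ a k, ζ a k * ∏ l, w₀ l ^ e a k l = x₀ a k) ∧
        ∀ w : Fin n → ℂˣ,
          Coc σ (fun a k => (ζ a k * ∏ l, w l ^ e a k l) / x₀ a k) ∧
          (∀ a, ∏ k, (ζ a (b₀ k) * ∏ l, w l ^ e a (b₀ k) l) = ∏ k, x₀ a (b₀ k)) ∧
          ∀ i k, ζ (γ i ^ per σ (γ i) k) k * ∏ l, w l ^ e (γ i ^ per σ (γ i) k) k l =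
            x₀ (γ i ^ per σ (γ i) k) k := by
  classical
  let F := (Γ × Fin r) →₀ ℤ
  let rel : Γ × Γ × Fin r → F := fun t => Finsupp.single (t.1 * t.2.1, t.2.2) 1 -
    Finsupp.single (t.1, σ t.2.1 t.2.2) 1 - Finsupp.single (t.2.1, t.2.2) 1
  let dets : Γ → F := fun a => ∑ k, Finsupp.single (a, b₀ k) 1
  let bds : Fin s × Fin r → F := fun t => Finsupp.single (γ t.1 ^ per σ (γ t.1) t.2, t.2) 1
  let K : Submodule ℤ F := Submodule.span ℤ (Set.range rel ∪ (Set.range dets ∪ Set.range bds))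
  obtain ⟨S, hS⟩ := (Group.fg_def.1 (inferInstance : Group.FG Γ))
  have hgen : ∀ a k, K.mkQ (Finsupp.single (a, k) 1) ∈ Submodule.span ℤ
      (Set.range fun t : S × Fin r => K.mkQ (Finsupp.single ((t.1 : Γ), t.2) 1)) := by
    have hrel : ∀ a b k, K.mkQ (Finsupp.single (a * b, k) 1) =
        K.mkQ (Finsupp.single (a, σ b k) 1) + K.mkQ (Finsupp.single (b, k) 1) := fun a b k => by
      rw [← map_add, ← sub_eq_zero, ← map_sub, ← sub_sub, Submodule.mkQ_apply,
        Submodule.Quotient.mk_eq_zero]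
      exact Submodule.subset_span (Or.inl ⟨(a, b, k), rfl⟩)
    intro a
    have ha : a ∈ Subgroup.closure (S : Set Γ) := hS ▸ Subgroup.mem_top a
    induction ha using Subgroup.closure_induction with
    | mem g hg => exact fun k => Submodule.subset_span ⟨(⟨g, hg⟩, k), rfl⟩
    | one =>
      intro k
      have h := hrel 1 1 k
      rw [mul_one, map_one, Equiv.Perm.one_apply] at h
      rw [show K.mkQ (Finsupp.single ((1 : Γ), k) 1) = 0 from left_eq_add.1 h]
      exact zero_mem _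
    | mul a b _ _ ha hb => intro k; rw [hrel]; exact add_mem (ha _) (hb _)
    | inv a _ ha =>
      intro k
      have h := hrel a a⁻¹ k
      have h1 := hrel 1 1 k
      rw [mul_one, map_one, Equiv.Perm.one_apply] at h1
      rw [mul_inv_cancel, left_eq_add.1 h1] at h
      rw [eq_neg_of_add_eq_zero_right h.symm]
      exact neg_mem (ha _)
  have hfin : Module.Finite ℤ (F ⧸ K) := by
    refine Module.Finite.of_surjective (Fintype.linearCombination ℤ
      (fun t : S × Fin r => K.mkQ (Finsupp.single ((t.1 : Γ), t.2) 1))) ?_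
    rw [← LinearMap.range_eq_top, Fintype.range_linearCombination, eq_top_iff]
    rintro v -
    obtain ⟨v, rfl⟩ := K.mkQ_surjective v
    induction v using Finsupp.induction_linear with
    | zero => rw [map_zero]; exact zero_mem _
    | add u v hu hv => rw [map_add]; exact add_mem hu hv
    | single t m =>
      rw [← mul_one m, ← smul_eq_mul, ← Finsupp.smul_single, map_smul]
      exact Submodule.smul_mem _ _ (hgen t.1 t.2)
  let T : Submodule ℤ (F ⧸ K) := Submodule.torsion ℤ (F ⧸ K)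
  have hTfin : Finite T := Module.finite_of_fg_torsion T (fun x => by
    obtain ⟨x, hx⟩ := x
    obtain ⟨a, ha⟩ := (Submodule.mem_torsion_iff x).1 hx
    exact ⟨a, Subtype.ext ha⟩)
  let Q := (F ⧸ K) ⧸ T
  have : Module.Free ℤ Q := Module.free_of_finite_type_torsion_free'
  let b : Basis (Fin (finrank ℤ Q)) ℤ Q := Module.finBasis ℤ Q
  let q : F →ₗ[ℤ] Q := T.mkQ.comp K.mkQ
  have hq : Function.Surjective q := T.mkQ_surjective.comp K.mkQ_surjective
  let sec : Q →ₗ[ℤ] F := b.constr ℤ fun l => Function.surjInv hq (b l)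
  have hsec : ∀ v, q (sec v) = v := fun v => by
    refine LinearMap.congr_fun (f := q.comp sec) (g := LinearMap.id) (b.ext fun l => ?_) v
    rw [LinearMap.comp_apply, Basis.constr_basis, Function.surjInv_eq hq, LinearMap.id_apply]
  refine ⟨Nat.card T, Nat.card_pos, fun N x₀ hx₀ hdet hbd => ?_⟩
  let ψ : F →ₗ[ℤ] Additive ℂˣ :=
    Finsupp.linearCombination ℤ fun t : Γ × Fin r => Additive.ofMul (x₀ t.1 t.2)
  have hψ : ∀ a k, ψ (Finsupp.single (a, k) 1) = Additive.ofMul (x₀ a k) := fun a k => by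
    rw [Finsupp.linearCombination_single, one_smul]
  have hψd : ∀ a, ψ (dets a) = Additive.ofMul (∏ k, x₀ a (b₀ k)) := fun a => by
    rw [map_sum, ofMul_prod]; exact Finset.sum_congr rfl fun k _ => hψ a (b₀ k)
  have hψrel : ∀ t, N • ψ (rel t) = 0 := fun t => by
    obtain ⟨a, b', k⟩ := t
    rw [map_sub, map_sub, hψ, hψ, hψ, nsmul_sub, nsmul_sub, ← ofMul_pow, ← ofMul_pow, ← ofMul_pow,
      hx₀, ofMul_mul]
    abel
  have hψK : ∀ v ∈ K, N • ψ v = 0 := fun v hv => by
    induction hv using Submodule.span_induction with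
    | mem v hv =>
      rcases hv with ⟨t, rfl⟩ | ⟨a, rfl⟩ | ⟨t, rfl⟩
      · exact hψrel t
      · rw [hψd, ← ofMul_pow, hdet, ofMul_one]
      · rw [hψ, ← ofMul_pow, hbd, ofMul_one]
    | zero => rw [map_zero, nsmul_zero]
    | add u v _ _ hu hv => rw [map_add, nsmul_add, hu, hv, add_zero]
    | smul m v _ hv =>
      rw [map_zsmul, ← natCast_zsmul, smul_smul, mul_comm, ← smul_smul, natCast_zsmul, hv,
        smul_zero]
  have hqK : ∀ v ∈ K, q v = 0 := fun v hv => by
    show T.mkQ (K.mkQ v) = 0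
    rw [(Submodule.Quotient.mk_eq_zero K).2 hv |> fun h => (show K.mkQ v = 0 from h), map_zero]
  let Z : F →ₗ[ℤ] Additive ℂˣ := ψ - ψ.comp (sec.comp q)
  let W : (Fin (finrank ℤ Q) → ℂˣ) → (F →ₗ[ℤ] Additive ℂˣ) := fun w =>
    Z + (b.constr ℤ fun l => Additive.ofMul (w l)).comp q
  have hW : ∀ w a k, W w (Finsupp.single (a, k) 1) = Additive.ofMul
      (Additive.toMul (Z (Finsupp.single (a, k) 1)) *
        ∏ l, w l ^ (b.repr (q (Finsupp.single (a, k) 1)) l)) := fun w a k => by
    rw [ofMul_mul, ofMul_prod, ofMul_toMul, LinearMap.add_apply, LinearMap.comp_apply,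
      Basis.constr_apply_fintype]
    congr 1
  have hWq : ∀ w v, q v = 0 → W w v = ψ v := fun w v hv => by
    simp [W, Z, hv]
  refine ⟨finrank ℤ Q, fun a k => Additive.toMul (Z (Finsupp.single (a, k) 1)),
    fun a k l => b.repr (q (Finsupp.single (a, k) 1)) l,
    fun l => Additive.toMul (ψ (sec (b l))), fun a k => ?_, fun a k => ?_, fun w => ⟨?_, ?_, ?_⟩⟩
  · set v : F := Finsupp.single (a, k) 1
    have ht : K.mkQ (v - sec (q v)) ∈ T := by
      rw [← Submodule.Quotient.mk_eq_zero T, ← Submodule.mkQ_apply]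
      show q (v - sec (q v)) = 0
      rw [map_sub, hsec, sub_self]
    have hk : Nat.card T • (v - sec (q v)) ∈ K := by
      rw [← Submodule.Quotient.mk_eq_zero K, ← Submodule.mkQ_apply, map_nsmul]
      exact congrArg Subtype.val (card_nsmul_eq_zero' (x := (⟨_, ht⟩ : T)))
    have := hψK _ hk
    rw [map_nsmul, smul_smul, mul_comm N, show ψ (v - sec (q v)) = Z v by simp [Z]] at this
    exact congrArg Additive.toMul this
  · apply Additive.ofMul.injective
    dsimp only
    rw [← hW (fun l => Additive.toMul (ψ (sec (b l)))) a k, ← hψ a k]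
    have : (b.constr ℤ fun l => Additive.ofMul (Additive.toMul (ψ (sec (b l))))) = ψ.comp sec :=
      b.ext fun l => by rw [Basis.constr_basis, ofMul_toMul, LinearMap.comp_apply]
    rw [LinearMap.add_apply, LinearMap.comp_apply, this, LinearMap.sub_apply,
      LinearMap.comp_apply, LinearMap.comp_apply]
    exact sub_add_cancel _ _
  · intro a b' k
    have hrelw := hWq w _ (hqK _ (Submodule.subset_span (Or.inl ⟨(a, b', k), rfl⟩) : rel (a, b', k) ∈ K))
    apply Additive.ofMul.injective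
    dsimp only
    simp only [rel, map_sub, hψ, hW] at hrelw
    rw [ofMul_div, ofMul_mul (x := _ / _), ofMul_div, ofMul_div, sub_add_sub_comm,
      sub_eq_sub_iff_sub_eq_sub, ← sub_sub, ← sub_sub]
    exact hrelw
  · intro a
    apply Additive.ofMul.injective
    dsimp only
    rw [ofMul_prod, ← hψd]
    simp_rw [← hW]
    rw [← map_sum]
    exact hWq w _ (hqK _ (Submodule.subset_span (Or.inr (Or.inl ⟨a, rfl⟩))))
  · intro i k
    apply Additive.ofMul.injective
    dsimp only
    rw [← hW, ← hψ]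
    exact hWq w _ (hqK _ (Submodule.subset_span (Or.inr (Or.inr ⟨(i, k), rfl⟩))))

end Vale.Agent.P002.Solv
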