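import Vale.Agent.P002.Alpha
import Vale.Agent.P002.Laurent
import Vale.Agent.P002.Solv.Conj
import Vale.Agent.P002.Solv.Models
import Vale.Agent.P002.Solv.Param

/-!
# P002: integral points are dense in the locus of representations with virtually solvable image
-/

namespace Vale.Agent.P002.Solv

open Matrix

variable {Γ : Type} [Group Γ] {r s : ℕ}

/-- An invertible matrix has a multiple of determinant one. -/
theorem exists_sl_scale (g : (Matrix (Fin r) (Fin r) ℂ)ˣ) :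
    ∃ (D : Matrix.SpecialLinearGroup (Fin r) ℂ) (u : ℂ), u ≠ 0 ∧
      (D : Matrix (Fin r) (Fin r) ℂ) = u • (g : Matrix (Fin r) (Fin r) ℂ) := by
  rcases Nat.eq_zero_or_pos r with hr | hr
  · subst hr
    exact ⟨1, 1, one_ne_zero, Subsingleton.elim _ _⟩
  · have h0 : (g : Matrix (Fin r) (Fin r) ℂ).det ≠ 0 :=
      ((Matrix.isUnit_iff_isUnit_det _).1 g.isUnit).ne_zero
    obtain ⟨u, hu⟩ := IsAlgClosed.exists_pow_nat_eq ((g : Matrix (Fin r) (Fin r) ℂ).det)⁻¹ hr
    refine ⟨⟨u • (g : Matrix (Fin r) (Fin r) ℂ),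
      by rw [Matrix.det_smul, Fintype.card_fin, hu, inv_mul_cancel₀ h0]⟩, u, ?_, rfl⟩
    rintro rfl
    rw [zero_pow hr.ne'] at hu
    exact inv_ne_zero h0 hu.symm

/-- Conjugation by a multiple is conjugation by the matrix. -/
theorem conj_scale (g : (Matrix (Fin r) (Fin r) ℂ)ˣ) (D : Matrix.SpecialLinearGroup (Fin r) ℂ)
    (u : ℂ) (hD : (D : Matrix (Fin r) (Fin r) ℂ) = u • (g : Matrix (Fin r) (Fin r) ℂ))
    (A : Matrix.SpecialLinearGroup (Fin r) ℂ) :
    ((D⁻¹ * A * D : Matrix.SpecialLinearGroup (Fin r) ℂ) : Matrix (Fin r) (Fin r) ℂ) =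
      (g⁻¹ : (Matrix (Fin r) (Fin r) ℂ)ˣ).val * (A : Matrix (Fin r) (Fin r) ℂ) * g.val := by
  have h1 : (D : Matrix (Fin r) (Fin r) ℂ) *
      ((g⁻¹ : (Matrix (Fin r) (Fin r) ℂ)ˣ).val * (A : Matrix (Fin r) (Fin r) ℂ) * g.val) =
      (A : Matrix (Fin r) (Fin r) ℂ) * (D : Matrix (Fin r) (Fin r) ℂ) := by
    rw [hD, Matrix.smul_mul, Matrix.mul_smul, ← mul_assoc, ← mul_assoc, Units.mul_inv, one_mul]
  rw [mul_assoc, Matrix.SpecialLinearGroup.coe_mul, Matrix.SpecialLinearGroup.coe_mul, ← h1,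
    ← mul_assoc, ← Matrix.SpecialLinearGroup.coe_mul, inv_mul_cancel,
    Matrix.SpecialLinearGroup.coe_one, one_mul]

/-- Conjugacy of units inside SL is conjugacy in SL. -/
theorem isConj_of_units (g : (Matrix (Fin r) (Fin r) ℂ)ˣ)
    (A B : Matrix.SpecialLinearGroup (Fin r) ℂ)
    (h : g.val * (A : Matrix (Fin r) (Fin r) ℂ) = (B : Matrix (Fin r) (Fin r) ℂ) * g.val) :
    IsConj A B := by
  obtain ⟨D, u, -, hD⟩ := exists_sl_scale g
  refine isConj_iff.2 ⟨D, ?_⟩
  rw [mul_inv_eq_iff_eq_mul]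
  refine Subtype.ext ?_
  rw [Matrix.SpecialLinearGroup.coe_mul, Matrix.SpecialLinearGroup.coe_mul, hD, Matrix.smul_mul,
    Matrix.mul_smul, h]

/-- A representation diagonal on a subgroup after conjugation is abelian there. -/
theorem solvable_of_diag (ρ : Γ →* Matrix.SpecialLinearGroup (Fin r) ℂ) (N : Subgroup Γ)
    (D : Matrix.SpecialLinearGroup (Fin r) ℂ)
    (hd : ∀ h ∈ N, ((D⁻¹ * ρ h * D : Matrix.SpecialLinearGroup (Fin r) ℂ) :
      Matrix (Fin r) (Fin r) ℂ).IsDiag) : Group.IsSolvable (N.map ρ) := by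
  refine Group.isSolvable_of_comm ?_
  rintro ⟨_, a, ha, rfl⟩ ⟨_, c, hc, rfl⟩
  refine Subtype.ext ?_
  show ρ a * ρ c = ρ c * ρ a
  have key : ∀ X Y : Matrix.SpecialLinearGroup (Fin r) ℂ, (X : Matrix (Fin r) (Fin r) ℂ).IsDiag →
      (Y : Matrix (Fin r) (Fin r) ℂ).IsDiag → X * Y = Y * X := fun X Y hX hY => by
    refine Subtype.ext ?_
    rw [Matrix.SpecialLinearGroup.coe_mul, Matrix.SpecialLinearGroup.coe_mul,
      ← hX.diagonal_diag, ← hY.diagonal_diag, Matrix.diagonal_mul_diagonal,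
      Matrix.diagonal_mul_diagonal]
    simp only [mul_comm]
  have h1 := key _ _ (hd a ha) (hd c hc)
  have h2 := congrArg (fun z => D * z * D⁻¹) h1
  simp only [mul_assoc, mul_inv_cancel_left, mul_inv_cancel, mul_one] at h2
  exact h2

/-- One-field density in the locus of semisimple representations with virtually solvable image. -/
theorem density [Group.FG Γ] (γ : Fin s → Γ)
    (c : Fin s → Matrix.SpecialLinearGroup (Fin r) ℂ)
    (hc : ∀ i, ∃ M : ℕ, 0 < M ∧ IsNilpotent ((c i : Matrix (Fin r) (Fin r) ℂ) ^ M - 1)) :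
    ∃ L : IntermediateField ℚ ℂ, FiniteDimensional ℚ L ∧
      ∀ p : MvPolynomial (Γ × Fin r × Fin r) ℂ,
        (∀ (ρ ρ' : Γ →* Matrix.SpecialLinearGroup (Fin r) ℂ) (g : Matrix.SpecialLinearGroup (Fin r) ℂ),
          (∀ a, ρ' a = g * ρ a * g⁻¹) →
          MvPolynomial.eval (fun t => (ρ' t.1 : Matrix (Fin r) (Fin r) ℂ) t.2.1 t.2.2) p =
            MvPolynomial.eval (fun t => (ρ t.1 : Matrix (Fin r) (Fin r) ℂ) t.2.1 t.2.2) p) →
        (∀ ρ : Γ →* Matrix.SpecialLinearGroup (Fin r) ℂ, SS ρ →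
          (∃ H : Subgroup Γ, H.FiniteIndex ∧ Group.IsSolvable (H.map ρ)) →
          (∀ i, IsConj (c i) (ρ (γ i))) →
          (∀ a i j, (ρ a : Matrix (Fin r) (Fin r) ℂ) i j ∈ L ∧
            IsIntegral ℤ ((ρ a : Matrix (Fin r) (Fin r) ℂ) i j)) →
          MvPolynomial.eval (fun t => (ρ t.1 : Matrix (Fin r) (Fin r) ℂ) t.2.1 t.2.2) p = 0) →
        ∀ ρ : Γ →* Matrix.SpecialLinearGroup (Fin r) ℂ, SS ρ →
          (∃ H : Subgroup Γ, H.FiniteIndex ∧ Group.IsSolvable (H.map ρ)) →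
          (∀ i, IsConj (c i) (ρ (γ i))) →
          MvPolynomial.eval (fun t => (ρ t.1 : Matrix (Fin r) (Fin r) ℂ) t.2.1 t.2.2) p = 0 := by
  classical
  choose M hM hMn using hc
  obtain ⟨α, hαn, hαi, hαi', hαt, hα5⟩ := exists_alpha
  obtain ⟨Γ₁, hN₁, hF₁, hdiag⟩ := diag_bound Γ r
  set n := Γ₁.index with hn_def
  have hn : 0 < n := Nat.pos_of_ne_zero hF₁.index_ne_zero
  obtain ⟨S₀, hS₀⟩ := (Group.fg_def.1 (inferInstance : Group.FG Γ))
  have : Finite (Γ →* Equiv.Perm (Fin r)) :=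
    Finite.of_injective (fun f => fun a : S₀ => f a) fun f f' h =>
      MonoidHom.eq_of_eqOn_dense hS₀ fun a ha => congrFun h ⟨a, ha⟩
  have : Fintype (Γ →* Equiv.Perm (Fin r)) := Fintype.ofFinite _
  choose E hE0 hE using fun q : (Γ →* Equiv.Perm (Fin r)) × (Fin r → Fin r) =>
    exists_param q.1 q.2 γ
  let N₀ : ℕ := (n * n ^ r).factorial * (n * n * ∏ i, M i)
  have hN₀ : 0 < N₀ := Nat.mul_pos (Nat.factorial_pos _)
    (Nat.mul_pos (Nat.mul_pos hn hn) (Finset.prod_pos fun i _ => hM i))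
  let m : ℕ := 2 * n * ((∏ q, E q) * N₀)
  have hm : 0 < m := Nat.mul_pos (Nat.mul_pos two_pos hn)
    (Nat.mul_pos (Finset.prod_pos fun q _ => hE0 q) hN₀)
  have hnm : n ∣ m := Dvd.intro_left 2 rfl |>.mul_right _
  have h2m : 2 ∣ m := (dvd_mul_right 2 n).mul_right _
  have hEm : ∀ q, E q * N₀ ∣ m := fun q =>
    (Nat.mul_dvd_mul_right (Finset.dvd_prod_of_mem E (Finset.mem_univ q)) _).mul_left _
  obtain ⟨S, hSf, hSi, hS⟩ := models_bounded (n * m ^ r) r
  let L : IntermediateField ℚ ℂ := IntermediateField.adjoin ℚ (insert α S)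
  have : Finite (insert α S : Set ℂ) := (hSf.insert α).to_subtype
  have hfin : FiniteDimensional ℚ L := IntermediateField.finiteDimensional_adjoin (fun z hz => by
    rcases hz with rfl | hz
    · exact hαi.tower_top
    · exact (hSi z hz).tower_top)
  let R : Subring ℂ := L.toSubfield.toSubring ⊓ (integralClosure ℤ ℂ).toSubring
  have hR : ∀ z : ℂ, z ∈ R ↔ z ∈ L ∧ IsIntegral ℤ z := fun z => Iff.rfl
  have hSR : ∀ z ∈ S, z ∈ R := fun z hz =>
    (hR z).2 ⟨IntermediateField.subset_adjoin ℚ _ (Set.mem_insert_of_mem _ hz), hSi z hz⟩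
  have hα0 : α ≠ 0 := fun h => by simp [h] at hαn
  have hαL : α ∈ L := IntermediateField.subset_adjoin ℚ _ (Set.mem_insert _ _)
  have hαR : α ∈ R := (hR α).2 ⟨hαL, hαi⟩
  let Q : Subgroup ℂˣ :=
    { carrier := {u | (u : ℂ) ∈ R ∧ ((u⁻¹ : ℂˣ) : ℂ) ∈ R ∧ ∃ q ∈ R, (u : ℂ) = 1 + 2 * q}
      one_mem' := ⟨by simp, by simp, 0, zero_mem _, by simp⟩
      mul_mem' := by
        rintro u v ⟨hu, hu', q, hq, eu⟩ ⟨hv, hv', q', hq', ev⟩
        refine ⟨by rw [Units.val_mul]; exact mul_mem hu hv,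
          by rw [_root_.mul_inv_rev, Units.val_mul]; exact mul_mem hv' hu',
          q + (u : ℂ) * q', add_mem hq (mul_mem hu hq'), ?_⟩
        rw [Units.val_mul, ev, mul_add, mul_one, eu]
        ring
      inv_mem' := by
        rintro u ⟨hu, hu', q, hq, eu⟩
        refine ⟨hu', by rwa [inv_inv], -(q * ((u⁻¹ : ℂˣ) : ℂ)), neg_mem (mul_mem hq hu'), ?_⟩
        have h := u.mul_inv
        rw [eu] at h
        linear_combination h }
  let A : ℂˣ := Units.mk0 α hα0 ^ 5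
  have hA : A ∈ Q := by
    refine ⟨?_, ?_, (α - 1) * (α ^ 3 + α ^ 2 + α), ?_, ?_⟩
    · simpa [A] using pow_mem hαR 5
    · have h : α⁻¹ ∈ R := (hR _).2 ⟨inv_mem hαL, hαi'⟩
      simpa [A, inv_pow] using pow_mem h 5
    · exact mul_mem (sub_mem hαR (one_mem _))
        (add_mem (add_mem (pow_mem hαR 3) (pow_mem hαR 2)) hαR)
    · simpa [A] using hα5
  have hAinj : Function.Injective fun k : ℕ => A ^ k :=
    injective_pow_iff_not_isOfFinOrder.2 fun h => by
      obtain ⟨j, hj, hj1⟩ := h.exists_pow_eq_one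
      exact hαt (5 * j) (by omega) (by simpa [A, ← pow_mul] using congrArg Units.val hj1)
  refine ⟨L, hfin, fun p hinv hp ρ hss hsol hρ => ?_⟩
  obtain ⟨P, hP⟩ := hdiag ρ hss hsol
  let ρ' : Γ →* Matrix.SpecialLinearGroup (Fin r) ℂ :=
    MonoidHom.mk' (fun a => P⁻¹ * ρ a * P) fun a c => by
      simp only [map_mul, mul_assoc, mul_inv_cancel_left]
  have hρ' : ∀ i, IsConj (c i) (ρ' (γ i)) := fun i =>
    (hρ i).trans (isConj_iff.2 ⟨P⁻¹, by rw [inv_inv]; rfl⟩)
  obtain ⟨b, σ, χ, hswap, hval, hcov, -, hunused⟩ := exists_blocks ρ' Γ₁ hP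
  obtain ⟨x, hx, hmul, hsub, hxχ⟩ := exists_twist ρ' Γ₁ b σ χ hcov hswap hval
  -- the three constraints
  have hrel : ∀ a d k, x (a * d) k ^ N₀ = x a (σ d k) ^ N₀ * x d k ^ N₀ := fun a d k => by
    obtain ⟨t, ht⟩ : n ∣ N₀ := (((dvd_mul_right n n).mul_right _)).mul_left _
    simp only [ht, pow_mul, hn_def]
    rw [← mul_pow]
    exact congrArg (· ^ t) (hx a d k)
  have hprod : ∀ a, (∏ k, x a (b k)) ^ N₀ = 1 := by
    intro a
    obtain ⟨F, hFfin, hFc, hF⟩ := twist_subgroup ρ' Γ₁ b σ hswap x hmul hsub n hn dvd_rfl ⊤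
    let u : (Matrix (Fin r) (Fin r) ℂ)ˣ := toU ρ' a * (Dg b (x a))⁻¹
    have hu : u ∈ F := (hF u).2 ⟨a, Subgroup.mem_top a, 1, one_pow _, by simp [u]⟩
    have huK : u ^ (n * n ^ r).factorial = 1 := by
      obtain ⟨t, ht⟩ := Nat.dvd_factorial Nat.card_pos hFc
      rw [ht, pow_mul]
      have h1 : (⟨u, hu⟩ : F) ^ Nat.card F = 1 := pow_card_eq_one'
      rw [show u ^ Nat.card F = 1 from congrArg Subtype.val h1, one_pow]
    have hd : u.val.det * ∏ k, (x a (b k) : ℂ) = 1 := by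
      have h1 : u.val * (Dg b (x a)).val = (ρ' a : Matrix (Fin r) (Fin r) ℂ) := by
        rw [← Units.val_mul]
        simp [u, toU_val]
      have h2 := congrArg Matrix.det h1
      rwa [Matrix.det_mul, dg_val, Matrix.det_diagonal, Matrix.SpecialLinearGroup.det_coe] at h2
    have h3 := congrArg (· ^ (n * n ^ r).factorial) hd
    simp only [mul_pow, one_pow, ← Matrix.det_pow, ← Units.val_pow_eq_pow_val, huK, Units.val_one,
      Matrix.det_one, one_mul] at h3
    show _ ^ ((n * n ^ r).factorial * (n * n * ∏ i, M i)) = 1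
    rw [pow_mul, show (∏ k, x a (b k)) ^ (n * n ^ r).factorial = 1 from
      Units.ext (by simpa using h3), one_pow]
  have hbd : ∀ i k, x (γ i ^ per σ (γ i) k) k ^ N₀ = 1 := by
    intro i k
    set g := γ i
    set l := per σ g k
    let h : Γ₁ := ⟨(g ^ (l * M i)) ^ n, Subgroup.pow_index_mem Γ₁ _⟩
    obtain ⟨C, hC⟩ := isConj_iff.1 (hρ' i)
    have hnil : IsNilpotent ((ρ' h : Matrix (Fin r) (Fin r) ℂ) - 1) := by
      have h1 : IsNilpotent ((c i : Matrix (Fin r) (Fin r) ℂ) ^ (M i * (l * n)) - 1) := by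
        rw [pow_mul, ← mul_geom_sum]
        exact Commute.isNilpotent_mul_right (Commute.sum_right _ _ _ fun j _ =>
          ((Commute.refl _).pow_right j).sub_left (Commute.one_left _)) (hMn i)
      obtain ⟨e, he⟩ := h1
      refine ⟨e, ?_⟩
      let u : (Matrix (Fin r) (Fin r) ℂ)ˣ := ⟨C, (C⁻¹ : Matrix.SpecialLinearGroup (Fin r) ℂ),
        by rw [← Matrix.SpecialLinearGroup.coe_mul, mul_inv_cancel]; rfl,
        by rw [← Matrix.SpecialLinearGroup.coe_mul, inv_mul_cancel]; rfl⟩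
      have e1 : (ρ' h : Matrix (Fin r) (Fin r) ℂ) - 1 =
          u.val * ((c i : Matrix (Fin r) (Fin r) ℂ) ^ (M i * (l * n)) - 1) * (u⁻¹).val := by
        rw [show (h : Γ) = g ^ (M i * (l * n)) by simp only [h, ← pow_mul]; congr 1; ring,
          map_pow, ← hC, Matrix.SpecialLinearGroup.coe_pow, Matrix.SpecialLinearGroup.coe_mul,
          Matrix.SpecialLinearGroup.coe_mul]
        show (u.val * _ * (u⁻¹).val) ^ _ - 1 = _
        rw [Units.conj_pow, mul_sub, sub_mul, mul_one, Units.mul_inv]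
      rw [e1, Units.conj_pow, he, mul_zero, zero_mul]
    have hχ1 : ∀ j, χ h j = 1 := by
      intro j
      by_cases hj : ∀ q, b q ≠ j
      · exact hunused h j hj
      push Not at hj
      obtain ⟨q, rfl⟩ := hj
      obtain ⟨e, he⟩ := hnil
      rw [← toU_val, hval, dg_val, ← Matrix.diagonal_one, Matrix.diagonal_sub,
        Matrix.diagonal_pow] at he
      have h4 := congrFun (congrFun he q) q
      simp only [Matrix.diagonal_apply_eq, Matrix.zero_apply, Pi.pow_apply] at h4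
      exact Units.ext (sub_eq_zero.1 (pow_eq_zero_iff' |>.1 h4).1)
    have h2 : x (g ^ l) k ^ (n * (M i * n)) = 1 := by
      have h5 := Coc.pow hx (per_fixed σ g k) (M i * n)
      simp only [← pow_mul] at h5
      rw [← h5, show g ^ (l * (M i * n)) = (h : Γ) by
        simp only [h, ← pow_mul]; congr 1; ring, hxχ, hχ1, one_pow]
    obtain ⟨t, ht⟩ : n * (M i * n) ∣ N₀ := by
      refine Dvd.dvd.mul_left ?_ _
      rw [show n * (M i * n) = n * n * M i by ring]
      exact Nat.mul_dvd_mul_left _ (Finset.dvd_prod_of_mem _ (Finset.mem_univ i))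
    rw [ht, pow_mul, h2, one_pow]
  obtain ⟨d, ζ, e, w₀, hζ, hw₀, hw⟩ := hE (σ, b) N₀ x hrel hprod hbd
  let z : (Fin d → ℂˣ) → Γ → Fin r → ℂˣ := fun w a j => (ζ a j * ∏ l, w l ^ e a j l) / x a j
  have hz : ∀ w, Coc σ (z w) := fun w => (hw w).1
  have hzd : ∀ w a, ∏ k, z w a (b k) = 1 := fun w a => by
    simp only [z, Finset.prod_div_distrib]
    rw [(hw w).2.1 a, div_self']
  have hZdet : ∀ w a, ((ρ' a : Matrix (Fin r) (Fin r) ℂ) * (Dg b (z w a)).val).det = 1 :=
    fun w a => by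
      rw [Matrix.det_mul, Matrix.SpecialLinearGroup.det_coe, dg_val, Matrix.det_diagonal, one_mul,
        ← Units.coe_prod, hzd w a, Units.val_one]
  let Rw : (Fin d → ℂˣ) → (Γ →* Matrix.SpecialLinearGroup (Fin r) ℂ) := fun w =>
    MonoidHom.mk' (fun a => ⟨(ρ' a : Matrix (Fin r) (Fin r) ℂ) * (Dg b (z w a)).val, hZdet w a⟩)
      fun a a' => Subtype.ext (by
        show (ρ' (a * a') : Matrix (Fin r) (Fin r) ℂ) * (Dg b (z w (a * a'))).val =
          ((ρ' a : Matrix (Fin r) (Fin r) ℂ) * (Dg b (z w a)).val) *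
          ((ρ' a' : Matrix (Fin r) (Fin r) ℂ) * (Dg b (z w a')).val)
        rw [← toU_val, ← toU_val, ← toU_val, ← Units.val_mul, ← Units.val_mul, ← Units.val_mul,
          ← Units.val_mul, map_mul]
        congr 1
        rw [mul_assoc (toU ρ' a) (Dg b (z w a)), ← mul_assoc (Dg b (z w a)), hswap,
          mul_assoc (toU ρ' a'), ← mul_assoc (toU ρ' a), ← map_mul (Dg b)]
        congr 2
        funext j
        exact (hz w a a' j))
  have hRw : ∀ w a, (Rw w a : Matrix (Fin r) (Fin r) ℂ) =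
      (toU ρ' a * Dg b (z w a)).val := fun w a => rfl
  have hgood : ∀ k : Fin d → ℕ, MvPolynomial.eval
      (fun t => (Rw (fun l => A ^ k l) t.1 : Matrix (Fin r) (Fin r) ℂ) t.2.1 t.2.2) p = 0 := by
    intro k
    set w := fun l => A ^ k l
    obtain ⟨F, hFfin, hFc, hF⟩ := twist_subgroup ρ' Γ₁ b σ hswap x hmul hsub m hm hnm ⊤
    obtain ⟨g, hg⟩ := hS F hFfin hFc
    obtain ⟨ε₁, hε₁, he₁⟩ := hsub 1
    have hε₁' : ε₁⁻¹ ^ m = 1 := by
      obtain ⟨t, ht⟩ := hnm
      rw [ht, inv_pow, pow_mul, hε₁, one_pow, inv_one]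
    have hDgF : ∀ ε : Fin r → ℂˣ, ε ^ m = 1 → Dg b ε ∈ F := fun ε hε =>
      (hF _).2 ⟨1, Subgroup.mem_top _, ε₁⁻¹ * ε, by rw [mul_pow, hε₁', hε, one_mul],
        by rw [show ((1 : Γ₁) : Γ) = 1 from rfl] at he₁
           rw [he₁, ← map_mul, mul_inv_cancel_left]⟩
    -- integrality of the conjugate
    have hint : ∀ a i j, ((g⁻¹ : (Matrix (Fin r) (Fin r) ℂ)ˣ).val *
        (toU ρ' a * Dg b (z w a)).val * g.val) i j ∈ R := by
      intro a
      let t : Fin r → ℂˣ := fun j => ∏ l, w l ^ e a j l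
      have hζF : toU ρ' a * (Dg b (x a))⁻¹ * Dg b (ζ a) ∈ F := by
        refine (hF _).2 ⟨a, Subgroup.mem_top a, ζ a, funext fun j => ?_, rfl⟩
        obtain ⟨q, hq⟩ := hEm (σ, b)
        show ζ a j ^ m = 1
        rw [hq, pow_mul, hζ, one_pow]
      have hsplit : toU ρ' a * Dg b (z w a) =
          (toU ρ' a * (Dg b (x a))⁻¹ * Dg b (ζ a)) * Dg b t := by
        rw [mul_assoc (toU ρ' a), mul_assoc (toU ρ' a), ← map_inv, ← map_mul, ← map_mul]
        congr 2
        funext j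
        simp only [z, t, Pi.mul_apply, Pi.inv_apply, div_eq_mul_inv]
        ac_rfl
      have ht : ∀ j, ∃ q ∈ R, (t j : ℂ) = 1 + 2 * q := fun j =>
        (prod_mem fun l _ => zpow_mem (pow_mem hA (k l)) _ : t j ∈ Q).2.2
      choose q hq hqe using ht
      let neg : Fin r → Fin r → ℂˣ := fun j => Function.update 1 j (-1)
      have hneg : ∀ j, neg j ^ m = 1 := fun j => funext fun l => by
        obtain ⟨u, hu⟩ := h2m
        show neg j l ^ m = 1
        rw [hu, pow_mul, show neg j l ^ 2 = 1 from ?_, one_pow]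
        rcases eq_or_ne l j with rfl | hne
        · simp [neg]
        · simp [neg, hne]
      have hdec : (Dg b t).val =
          1 + ∑ j, q j • (1 - (Dg b (neg j)).val) := by
        rw [dg_val]
        ext i i'
        rw [Matrix.add_apply, Matrix.sum_apply]
        simp only [Matrix.smul_apply, Matrix.sub_apply, dg_val, smul_eq_mul]
        rcases eq_or_ne i i' with rfl | hne
        · simp only [Matrix.diagonal_apply_eq, Matrix.one_apply_eq, neg]
          rw [Finset.sum_eq_single (b i) (fun j _ hj => by simp [Ne.symm hj]) (by simp), hqe]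
          simp
          ring
        · simp [hne]
      have hconj : ∀ u ∈ F, ∀ i j,
          ((g⁻¹ : (Matrix (Fin r) (Fin r) ℂ)ˣ).val * u.val * g.val) i j ∈ R := fun u hu i j =>
        hSR _ (by simpa [Units.val_mul] using hg u hu i j)
      have h2 : ∀ i j, ((g⁻¹ : (Matrix (Fin r) (Fin r) ℂ)ˣ).val * (Dg b t).val * g.val) i j ∈ R := by
        intro i j
        rw [hdec, mul_add, add_mul, mul_one, Units.inv_mul, Matrix.mul_sum, Matrix.sum_mul,
          Matrix.add_apply, Matrix.sum_apply]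
        have h1R : ∀ i j : Fin r, (1 : Matrix (Fin r) (Fin r) ℂ) i j ∈ R := fun i j => by
          rw [Matrix.one_apply]; split_ifs <;> simp
        refine add_mem (h1R i j) (sum_mem fun l _ => ?_)
        rw [Matrix.mul_smul, Matrix.smul_mul, mul_sub, sub_mul, mul_one, Units.inv_mul,
          Matrix.smul_apply, Matrix.sub_apply, smul_eq_mul]
        exact mul_mem (hq l) (sub_mem (h1R i j) (hconj _ (hDgF _ (hneg l)) i j))
      intro i j
      rw [hsplit, Units.val_mul]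
      have e : ∀ X Y : Matrix (Fin r) (Fin r) ℂ,
          (g⁻¹ : (Matrix (Fin r) (Fin r) ℂ)ˣ).val * (X * Y) * g.val =
          ((g⁻¹ : (Matrix (Fin r) (Fin r) ℂ)ˣ).val * X * g.val) *
            ((g⁻¹ : (Matrix (Fin r) (Fin r) ℂ)ˣ).val * Y * g.val) := fun X Y => by
        simp [mul_assoc]
      rw [e, Matrix.mul_apply]
      exact sum_mem fun l _ => mul_mem (hconj _ hζF i l) (h2 l j)
    have hdiagR : ∀ h ∈ Γ₁, (Rw w h : Matrix (Fin r) (Fin r) ℂ).IsDiag := fun h hh => by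
      rw [hRw, hval ⟨h, hh⟩, ← map_mul, dg_val]
      exact Matrix.isDiag_diagonal _
    obtain ⟨D, u, -, hD⟩ := exists_sl_scale g
    let R' : Γ →* Matrix.SpecialLinearGroup (Fin r) ℂ :=
      MonoidHom.mk' (fun a => D⁻¹ * Rw w a * D) fun a a' => by
        simp only [map_mul, mul_assoc, mul_inv_cancel_left]
    have h0 : MvPolynomial.eval
        (fun t => (R' t.1 : Matrix (Fin r) (Fin r) ℂ) t.2.1 t.2.2) p = 0 := by
      refine hp R' (ss_conj D⁻¹ (fun a => by rw [inv_inv]; rfl) (ss_of_diag _ Γ₁ hdiagR))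
        ⟨Γ₁, hF₁, solvable_of_diag R' Γ₁ D⁻¹ fun h hh => ?_⟩ (fun i => ?_) fun a i j => ?_
      · have : (D⁻¹)⁻¹ * R' h * D⁻¹ = Rw w h := by
          show (D⁻¹)⁻¹ * (D⁻¹ * Rw w h * D) * D⁻¹ = _
          group
        rw [this]
        exact hdiagR h hh
      · refine ((hρ' i).trans ?_).trans (isConj_iff.2 ⟨D⁻¹, by rw [inv_inv]; rfl⟩)
        obtain ⟨dd, hdd⟩ := exists_coboundary (σ := σ) (x := fun _ _ => 1)
          (fun _ _ _ => (mul_one _).symm) (hz w) (γ i) fun j => by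
            show (_ / _ : ℂˣ) = 1
            rw [(hw w).2.2 i j, div_self']
        refine isConj_of_units (Dg b dd) _ _ ?_
        rw [hRw, ← toU_val, ← Units.val_mul, ← Units.val_mul, hswap, mul_assoc, ← map_mul]
        congr 3
        funext j
        show dd (σ (γ i) j) = z w (γ i) j * dd j
        rw [hdd j, mul_one]
      · refine (hR _).1 ?_
        show ((D⁻¹ * Rw w a * D : Matrix.SpecialLinearGroup (Fin r) ℂ) :
          Matrix (Fin r) (Fin r) ℂ) i j ∈ R
        rw [conj_scale g D u hD, hRw]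
        exact hint a i j
    rw [← h0]
    exact hinv R' (Rw w) D fun a => by
      show Rw w a = D * (D⁻¹ * Rw w a * D) * D⁻¹
      group
  let cc : Γ × Fin r × Fin r → ℂ := fun t => (ρ' t.1 : Matrix (Fin r) (Fin r) ℂ) t.2.1 t.2.2 *
    ((ζ t.1 (b t.2.2) * (x t.1 (b t.2.2))⁻¹ : ℂˣ) : ℂ)
  have hentry : ∀ w t, (Rw w t.1 : Matrix (Fin r) (Fin r) ℂ) t.2.1 t.2.2 =
      cc t * ((∏ l, w l ^ e t.1 (b t.2.2) l : ℂˣ) : ℂ) := fun w t => by
    show ((ρ' t.1 : Matrix (Fin r) (Fin r) ℂ) * (Dg b (z w t.1)).val) t.2.1 t.2.2 = _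
    rw [dg_val, Matrix.mul_diagonal]
    simp only [cc, z, div_eq_mul_inv, Units.val_mul]
    ring
  have hRρ : Rw w₀ = ρ' := MonoidHom.ext fun a => Subtype.ext (by
    rw [hRw, show z w₀ a = 1 from funext fun j => by simp [z, hw₀], map_one, mul_one, toU_val])
  have key := eval_monomial_subst_eq_zero p cc (fun t => e t.1 (b t.2.2)) hAinj
    (fun k => by simpa only [← hentry] using hgood k) w₀
  simp only [← hentry, hRρ] at key
  rw [← key]
  exact hinv ρ' ρ P fun a => by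
    show ρ a = P * (P⁻¹ * ρ a * P) * P⁻¹
    group

end Vale.Agent.P002.Solv
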