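import Vale.Agent.P002.Monomial

/-!
# P002: semisimple representations with solvable image are virtually abelian
-/

namespace Vale.Agent.P002.Solv

open Module Submodule

variable {Γ : Type} [Group Γ] {V : Type} [AddCommGroup V] [Module ℂ V]

/-- An invariant subspace. -/
def InvR (ρ : Representation ℂ Γ V) (W : Submodule ℂ V) : Prop := ∀ g, ∀ v ∈ W, ρ g v ∈ W

/-- Semisimplicity by invariant complements. -/
def SSR (ρ : Representation ℂ Γ V) : Prop :=
  ∀ W, InvR ρ W → ∃ W', InvR ρ W' ∧ IsCompl W W'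

theorem rho_mul (ρ : Representation ℂ Γ V) (g h : Γ) (v : V) : ρ (g * h) v = ρ g (ρ h v) := by
  rw [map_mul, Module.End.mul_apply]

theorem rho_inv (ρ : Representation ℂ Γ V) (g : Γ) (v : V) : ρ g⁻¹ (ρ g v) = v := by
  rw [← rho_mul, inv_mul_cancel, map_one, Module.End.one_apply]

theorem rho_inv' (ρ : Representation ℂ Γ V) (g : Γ) (v : V) : ρ g (ρ g⁻¹ v) = v := by
  rw [← rho_mul, mul_inv_cancel, map_one, Module.End.one_apply]

theorem SSR.restr {ρ : Representation ℂ Γ V} (h : SSR ρ) (U : Submodule ℂ V) (hU : InvR ρ U) :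
    SSR (restr ρ U hU) := by
  intro S hS
  obtain ⟨U', hU', hc⟩ := h U hU
  obtain ⟨T, hT, hcT⟩ := h (S.map U.subtype ⊔ U') (by
    intro g v hv
    obtain ⟨_, ⟨w, hw, rfl⟩, c, hc', rfl⟩ := mem_sup.1 hv
    rw [map_add]
    exact add_mem_sup ⟨_, hS g w hw, rfl⟩ (hU' g c hc'))
  refine ⟨(T ⊔ U').comap U.subtype, fun g v hv => ?_, ?_, ?_⟩
  · obtain ⟨a, ha, c, hc', hac⟩ := mem_sup.1 (mem_comap.1 hv)
    refine mem_comap.2 (mem_sup.2 ⟨_, hT g a ha, _, hU' g c hc', ?_⟩)
    rw [← map_add, hac]; rfl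
  · rw [Submodule.disjoint_def]
    intro v hv hv'
    obtain ⟨a, ha, c, hc', hac⟩ := mem_sup.1 (mem_comap.1 hv')
    have ha' : a = 0 := Submodule.disjoint_def.1 hcT.disjoint a (by
      rw [show a = (v : V) + -c by
        rw [← show a + c = (v : V) from hac, add_neg_cancel_right]]
      exact add_mem_sup ⟨v, hv, rfl⟩ (neg_mem hc')) ha
    rw [ha', zero_add] at hac
    exact Subtype.ext (Submodule.disjoint_def.1 hc.disjoint _ v.2
      (show (v : V) ∈ U' by rw [show (v : V) = c from hac.symm]; exact hc'))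
  · rw [codisjoint_iff, eq_top_iff]
    intro v _
    obtain ⟨a, ha, t, ht, hat⟩ := mem_sup.1
      ((codisjoint_iff.1 hcT.codisjoint).symm ▸ Submodule.mem_top :
        (v : V) ∈ (S.map U.subtype ⊔ U') ⊔ T)
    obtain ⟨_, ⟨w, hw, rfl⟩, u, hu, rfl⟩ := mem_sup.1 ha
    have hmem : v - w ∈ (T ⊔ U').comap U.subtype := by
      refine mem_comap.2 (mem_sup.2 ⟨t, ht, u, hu, ?_⟩)
      rw [map_sub, Submodule.coe_subtype, ← hat, Submodule.coe_subtype]
      abel
    have := add_mem_sup hw hmem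
    rwa [add_sub_cancel] at this

theorem inv_irreducible_le (ρ : Representation ℂ Γ V) [FiniteDimensional ℂ V] :
    ∀ (d : ℕ) (W : Submodule ℂ V), finrank ℂ W = d → InvR ρ W → W ≠ ⊥ →
      ∃ S ≤ W, InvR ρ S ∧ S ≠ ⊥ ∧ ∀ T ≤ S, InvR ρ T → T = ⊥ ∨ T = S := by
  intro d
  induction d using Nat.strong_induction_on with
  | _ d ih =>
    intro W hd hW hne
    by_cases h : ∀ T ≤ W, InvR ρ T → T = ⊥ ∨ T = W
    · exact ⟨W, le_rfl, hW, hne, h⟩
    push Not at h
    obtain ⟨T, hTW, hT, hT0, hT1⟩ := h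
    obtain ⟨S, hS, h'⟩ := ih _ (hd ▸ Submodule.finrank_lt_finrank_of_lt (lt_of_le_of_ne hTW hT1))
      T rfl hT hT0
    exact ⟨S, hS.trans hTW, h'⟩

/-- Restricting to a normal subgroup keeps semisimplicity. -/
theorem SSR.clifford [FiniteDimensional ℂ V] {ρ : Representation ℂ Γ V} (h : SSR ρ) (N : Subgroup Γ)
    [N.Normal] : SSR (ρ.comp N.subtype) := by
  classical
  let ρN : Representation ℂ N V := ρ.comp N.subtype
  let Min : Submodule ℂ V → Prop := fun S =>
    InvR ρN S ∧ ∀ T ≤ S, InvR ρN T → T = ⊥ ∨ T = S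
  have hinvmap : ∀ S g, InvR ρN S → InvR ρN (S.map (ρ g)) := by
    rintro S g hS ⟨m, hm⟩ _ ⟨v, hv, rfl⟩
    refine ⟨ρ (g⁻¹ * m * g) v, hS ⟨_, ?_⟩ v hv, ?_⟩
    · have hn := (inferInstance : N.Normal).conj_mem m hm g⁻¹
      rwa [inv_inv] at hn
    · show ρ g (ρ (g⁻¹ * m * g) v) = ρ m (ρ g v)
      rw [← rho_mul, ← rho_mul]
      congr 2
      group
  have hmap : ∀ S g, Min S → Min (S.map (ρ g)) := by
    rintro S g ⟨hS, hmin⟩
    refine ⟨hinvmap S g hS, fun T hT hTi => ?_⟩
    have hT2 : T.map (ρ g⁻¹) ≤ S := by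
      rintro _ ⟨v, hv, rfl⟩
      obtain ⟨u, hu, rfl⟩ := hT hv
      rwa [rho_inv]
    have hback : T = (T.map (ρ g⁻¹)).map (ρ g) := by
      ext v
      constructor
      · exact fun hv => ⟨_, ⟨v, hv, rfl⟩, rho_inv' ρ g v⟩
      · rintro ⟨_, ⟨u, hu, rfl⟩, rfl⟩
        rwa [rho_inv']
    rcases hmin _ hT2 (hinvmap T g⁻¹ hTi) with e | e
    · left; rw [hback, e, Submodule.map_bot]
    · right; rw [hback, e]
  let T0 : Submodule ℂ V := ⨆ S : {S // Min S}, S.1
  have hT0 : InvR ρ T0 := by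
    intro g v hv
    refine Submodule.iSup_induction _ (motive := fun v => ρ g v ∈ T0) hv (fun S u hu => ?_)
      (by simp) fun u w hu hw => by rw [map_add]; exact add_mem hu hw
    exact mem_iSup_of_mem (⟨S.1.map (ρ g), hmap _ g S.2⟩ : {S // Min S}) ⟨u, hu, rfl⟩
  have htop : T0 = ⊤ := by
    obtain ⟨T', hT', hc⟩ := h T0 hT0
    by_contra hne
    have hT'0 : T' ≠ ⊥ := fun e => hne (by
      have := codisjoint_iff.1 hc.codisjoint
      rwa [e, sup_bot_eq] at this)
    obtain ⟨S, hS, hSi, hS0, hSm⟩ := inv_irreducible_le ρN _ T' rfl (fun m => hT' m.1) hT'0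
    refine hS0 (eq_bot_iff.2 fun v hv => ?_)
    exact (Submodule.mem_bot ℂ).2 (Submodule.disjoint_def.1 hc.disjoint v
      (mem_iSup_of_mem (⟨S, hSi, hSm⟩ : {S // Min S}) hv) (hS hv))
  intro W hW
  obtain ⟨W', ⟨hW', hdis⟩, hmax⟩ := wellFounded_gt.has_min
    {U : Submodule ℂ V | InvR ρN U ∧ W ⊓ U = ⊥}
    ⟨⊥, fun g v hv => by simp [(Submodule.mem_bot ℂ).1 hv], by simp⟩
  refine ⟨W', hW', disjoint_iff.2 hdis, codisjoint_iff.2 (eq_top_iff.2 (htop ▸ ?_))⟩
  refine iSup_le fun ⟨S, hS, hSm⟩ => ?_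
  by_contra hle
  have hsum : InvR ρN (W ⊔ W') := fun g v hv => by
    obtain ⟨a, ha, c, hc, rfl⟩ := mem_sup.1 hv
    rw [map_add]
    exact add_mem_sup (hW g a ha) (hW' g c hc)
  have hS0 : S ⊓ (W ⊔ W') = ⊥ :=
    (hSm _ inf_le_left fun g v hv => ⟨hS g v hv.1, hsum g v hv.2⟩).resolve_right fun e =>
      hle (inf_eq_left.1 e)
  refine hmax (W' ⊔ S) ⟨fun g v hv => ?_, ?_⟩ (lt_of_le_of_ne le_sup_left fun e => hle
    (le_trans (e.symm ▸ le_sup_right : S ≤ W') le_sup_right))
  · obtain ⟨a, ha, c, hc, rfl⟩ := mem_sup.1 hv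
    rw [map_add]
    exact add_mem_sup (hW' g a ha) (hS g c hc)
  · rw [eq_bot_iff]
    rintro v ⟨hv, hv'⟩
    obtain ⟨a, ha, c, hc, rfl⟩ := mem_sup.1 hv'
    have hc0 : c = 0 := (Submodule.mem_bot ℂ).1 (hS0 ▸ ⟨hc, by
      rw [show c = (a + c) + -a by abel]
      exact add_mem_sup hv (neg_mem ha)⟩)
    subst hc0
    rw [add_zero] at hv ⊢
    exact hdis ▸ ⟨hv, ha⟩

/-- A commuting semisimple family has a basis of common eigenvectors. -/
theorem exists_eigenbasis : ∀ (d : ℕ) {V : Type} [AddCommGroup V] [Module ℂ V]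
    [FiniteDimensional ℂ V] (ρ : Representation ℂ Γ V), finrank ℂ V = d → SSR ρ →
    (∀ g h, Commute (ρ g) (ρ h)) →
    ∃ (ι : Type) (_ : Fintype ι) (b : Basis ι ℂ V), ∀ g i, ∃ c : ℂ, ρ g (b i) = c • b i := by
  intro d
  induction d using Nat.strong_induction_on with
  | _ d ih =>
    intro V _ _ _ ρ hd hss hcomm
    by_cases hall : ∀ g, ∃ c : ℂ, ∀ v, ρ g v = c • v
    · refine ⟨_, inferInstance, Module.finBasis ℂ V, fun g i => ?_⟩
      obtain ⟨c, hc⟩ := hall g
      exact ⟨c, hc _⟩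
    push Not at hall
    obtain ⟨g₀, hg₀⟩ := hall
    have : Nontrivial V := by
      obtain ⟨v, hv⟩ := hg₀ 0
      exact ⟨ρ g₀ v, (0 : ℂ) • v, hv⟩
    obtain ⟨μ, hμ⟩ := Module.End.exists_eigenvalue (ρ g₀)
    let E := Module.End.eigenspace (ρ g₀) μ
    have hE : InvR ρ E := fun g v hv => by
      rw [Module.End.mem_eigenspace_iff] at hv ⊢
      rw [← Module.End.mul_apply, ← (hcomm g g₀).eq, Module.End.mul_apply, hv, map_smul]
    have hEt : E ≠ ⊤ := fun e => by
      obtain ⟨v, hv⟩ := hg₀ μ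
      exact hv (Module.End.mem_eigenspace_iff.1 (e ▸ Submodule.mem_top : v ∈ E))
    obtain ⟨E', hE', hc⟩ := hss E hE
    have hE't : E' ≠ ⊤ := fun e => by
      have hd' := hc.disjoint
      rw [e, disjoint_top] at hd'
      exact hμ hd'
    have hsub : ∀ (U : Submodule ℂ V) (hU : InvR ρ U), U ≠ ⊤ →
        ∃ (ι : Type) (_ : Fintype ι) (b : Basis ι ℂ U),
          ∀ g i, ∃ c : ℂ, restr ρ U hU g (b i) = c • b i := fun U hU hne =>
      ih _ (hd ▸ Submodule.finrank_lt hne) (restr ρ U hU) rfl (hss.restr U hU) fun g h =>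
        LinearMap.ext fun v => Subtype.ext (LinearMap.congr_fun (hcomm g h).eq (v : V))
    obtain ⟨ι₁, _, b₁, hb₁⟩ := hsub E hE hEt
    obtain ⟨ι₂, _, b₂, hb₂⟩ := hsub E' hE' hE't
    refine ⟨ι₁ ⊕ ι₂, inferInstance, (b₁.prod b₂).map (E.prodEquivOfIsCompl E' hc), fun g k => ?_⟩
    rcases k with i | i
    · obtain ⟨c, hc'⟩ := hb₁ g i
      refine ⟨c, ?_⟩
      simp
      exact congrArg Subtype.val hc'
    · obtain ⟨c, hc'⟩ := hb₂ g i
      refine ⟨c, ?_⟩
      simp
      exact congrArg Subtype.val hc'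

variable [FiniteDimensional ℂ V]

/-- Abelian groups modulo scalars inside a representation without nonscalar abelian normal
subgroups have bounded order. -/
theorem card_le_sq (ρ : Representation ℂ Γ V) [Nontrivial V] (B : Subgroup Γ)
    (hcomm : ∀ x ∈ B, ∀ y ∈ B, ∃ c : ℂ, ∀ v, ρ x (ρ y v) = c • ρ y (ρ x v))
    (hcen : ∀ x ∈ B, (∀ y ∈ B, Commute (ρ x) (ρ y)) → ∃ c : ℂ, ∀ v, ρ x v = c • v)
    {k : ℕ} (e : Fin k → Γ) (he : ∀ i, e i ∈ B)
    (hne : ∀ i j, i ≠ j → ¬ ∃ c : ℂ, ∀ v, ρ (e i) v = c • ρ (e j) v) :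
    k ≤ finrank ℂ (Module.End ℂ V) := by
  obtain ⟨w, hw⟩ := exists_ne (0 : V)
  have hρ0 : ∀ g, ρ g ≠ 0 := fun g h => hw (by
    rw [← rho_inv ρ g w, h]
    simp)
  choose χ hχ using fun (i : Fin k) (x : B) => hcomm x x.2 (e i) (he i)
  have hχu : ∀ i (x : B) (c : ℂ),
      (∀ v, ρ x.1 (ρ (e i) v) = c • ρ (e i) (ρ x.1 v)) → c = χ i x := by
    intro i x c h
    have hpt : ρ (e i) (ρ x.1 (ρ (x.1 : Γ)⁻¹ (ρ (e i)⁻¹ w))) = w := by
      rw [rho_inv', rho_inv']
    have h1 := (h (ρ (x.1 : Γ)⁻¹ (ρ (e i)⁻¹ w))).symm.trans (hχ i x _)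
    rw [hpt] at h1
    exact smul_left_injective ℂ hw h1
  let hom : Fin k → (B →* ℂ) := fun i =>
    { toFun := χ i
      map_one' := (hχu i 1 1 fun v => by simp).symm
      map_mul' := fun x y => (hχu i (x * y) _ fun v => by
        rw [Subgroup.coe_mul, rho_mul, hχ i y, map_smul, hχ i x, rho_mul, smul_smul,
          mul_comm]).symm }
  have hinj : Function.Injective hom := by
    intro i j hij
    by_contra hne'
    have hd : ∀ x : B, ∀ v, ρ x.1 (ρ (e i * (e j)⁻¹) v) = ρ (e i * (e j)⁻¹) (ρ x.1 v) := by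
      intro x v
      have hχe : χ i x = χ j x := DFunLike.congr_fun hij x
      have hj := hχ j x (ρ (e j)⁻¹ v)
      rw [rho_inv'] at hj
      have hj' : ρ (e j)⁻¹ (ρ x.1 v) = χ j x • ρ x.1 (ρ (e j)⁻¹ v) := by
        rw [hj, map_smul, rho_inv]
      rw [rho_mul, rho_mul, hχ i x, hj', map_smul, hχe]
    obtain ⟨c, hc⟩ := hcen _ (mul_mem (he i) (inv_mem (he j))) fun y hy =>
      LinearMap.ext fun v => (hd ⟨y, hy⟩ v).symm
    exact hne i j hne' ⟨c, fun v => by rw [← hc, rho_mul, rho_inv]⟩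
  have hli : LinearIndependent ℂ fun i => ρ (e i) := by
    rw [Fintype.linearIndependent_iff]
    intro c hc i
    obtain ⟨f, hf⟩ : ∃ f : Module.Dual ℂ (Module.End ℂ V), f (ρ (e i)) ≠ 0 := by
      by_contra h
      push Not at h
      exact hρ0 _ ((Module.forall_dual_apply_eq_zero_iff ℂ _).1 h)
    have hz : ∑ j, (c j * f (ρ (e j))) • (hom j : B → ℂ) = 0 := by
      funext x
      have hx : ∀ v, ∑ j, c j • χ j x • ρ (e j) v = 0 := by
        intro v
        have h1 := congrArg (ρ x.1) (LinearMap.congr_fun hc (ρ (x.1 : Γ)⁻¹ v))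
        simpa [map_sum, map_smul, hχ, rho_inv'] using h1
      have h1 : f (∑ j, (c j * χ j x) • ρ (e j)) = 0 := by
        rw [show ∑ j, (c j * χ j x) • ρ (e j) = 0 from LinearMap.ext fun v => by
          simpa [mul_smul] using hx v, map_zero]
      simp only [map_sum, map_smul, smul_eq_mul] at h1
      simp only [Finset.sum_apply, Pi.smul_apply, smul_eq_mul, Pi.zero_apply]
      rw [← h1]
      exact Finset.sum_congr rfl fun j _ => by show _ * χ j x = _; ring
    have := Fintype.linearIndependent_iff.1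
      ((linearIndependent_monoidHom B ℂ).comp hom hinj) _ hz i
    exact (mul_eq_zero.1 this).resolve_right hf
  simpa using hli.fintype_card_le_finrank

/-- Solvable semisimple image: finitely many cosets of an abelian part. -/
theorem virt_abelian : ∀ (d : ℕ) {Γ : Type} [Group Γ] {V : Type} [AddCommGroup V] [Module ℂ V]
    [FiniteDimensional ℂ V] (ρ : Representation ℂ Γ V), finrank ℂ V = d → SSR ρ →
    (∃ n, ∀ g ∈ derivedSeries Γ n, ρ g = 1) →
    ∃ H : Subgroup Γ, H.FiniteIndex ∧ ∀ g ∈ H, ∀ h ∈ H, Commute (ρ g) (ρ h) := by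
  intro d
  induction d using Nat.strong_induction_on with
  | _ d ih =>
    intro Γ _ V _ _ _ ρ hd hss hsol
    classical
    rcases subsingleton_or_nontrivial V with hV | hV
    · exact ⟨⊤, inferInstance, fun g _ h _ => LinearMap.ext fun v => Subsingleton.elim _ _⟩
    by_cases hA : ∃ A : Subgroup Γ, A.Normal ∧ (∀ x ∈ A, ∀ y ∈ A, Commute (ρ x) (ρ y)) ∧
        ∃ x ∈ A, ¬ ∃ c : ℂ, ∀ v, ρ x v = c • v
    · obtain ⟨A, hAn, hAc, x₀, hx₀, hx₀'⟩ := hA
      obtain ⟨ι, _, b, hb⟩ := exists_eigenbasis _ (ρ.comp A.subtype) rfl (hss.clifford A)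
        fun g h => hAc g g.2 h h.2
      choose χ hχ using hb
      let Wt : (A → ℂ) → Submodule ℂ V := fun f =>
        { carrier := {v | ∀ a : A, ρ a.1 v = f a • v}
          add_mem' := fun {u v} hu hv a => by rw [map_add, hu a, hv a, smul_add]
          zero_mem' := fun a => by simp
          smul_mem' := fun c v hv a => by rw [map_smul, hv a, smul_comm] }
      have hweight : ∀ f v, v ∈ Wt f → v ≠ 0 → ∃ i, ∀ a, χ a i = f a := by
        intro f v hv hv0
        obtain ⟨i, hi⟩ : ∃ i, b.repr v i ≠ 0 := by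
          by_contra hno
          push Not at hno
          exact hv0 (b.repr.map_eq_zero_iff.1 (Finsupp.ext hno))
        refine ⟨i, fun a => ?_⟩
        have e : ρ a.1 v = ∑ j, (b.repr v j * χ a j) • b j := by
          conv_lhs => rw [← b.sum_repr v]
          rw [map_sum]
          exact Finset.sum_congr rfl fun j _ => by
            rw [map_smul, show ρ a.1 (b j) = χ a j • b j from hχ a j, smul_smul]
        have h1 := congrArg (fun w => b.repr w i) (e.symm.trans (hv a))
        simp only [b.repr_sum_self, map_smul, Finsupp.smul_apply, smul_eq_mul] at h1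
        exact mul_left_cancel₀ hi (h1.trans (mul_comm _ _))
      have hmove : ∀ (g : Γ) f v, v ∈ Wt f →
          ρ g v ∈ Wt fun a => f ⟨g⁻¹ * a.1 * g, by simpa using hAn.conj_mem a.1 a.2 g⁻¹⟩ := by
        intro g f v hv a
        rw [← map_smul, ← hv ⟨g⁻¹ * a.1 * g, _⟩, ← rho_mul, ← rho_mul]
        congr 2
        group
      -- the elements fixing every weight
      let conjA : Γ → A → A := fun g a =>
        ⟨g⁻¹ * a.1 * g, by simpa using hAn.conj_mem a.1 a.2 g⁻¹⟩
      let Ch : Set (A → ℂ) := Set.range fun i => fun a => χ a i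
      have hconj1 : ∀ a, conjA 1 a = a := fun a => Subtype.ext (by simp [conjA])
      have hconjm : ∀ g h a, conjA (g * h) a = conjA h (conjA g a) := fun g h a =>
        Subtype.ext (by simp only [conjA]; group)
      have hCh : ∀ g, ∀ f ∈ Ch, (fun a => f (conjA g a)) ∈ Ch := by
        rintro g _ ⟨i, rfl⟩
        obtain ⟨j, hj⟩ := hweight _ _ (hmove g (fun a => χ a i) (b i) fun a => hχ a i) (fun h =>
          b.ne_zero i (by rw [← rho_inv ρ g (b i), h, map_zero]))
        exact ⟨j, funext hj⟩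
      let π : Γ →* Equiv.Perm Ch :=
        MonoidHom.mk' (fun g => ⟨fun f => ⟨_, hCh g f.1 f.2⟩, fun f => ⟨_, hCh g⁻¹ f.1 f.2⟩,
          fun f => Subtype.ext (funext fun a => by
            show f.1 (conjA g (conjA g⁻¹ a)) = f.1 a
            rw [← hconjm, inv_mul_cancel, hconj1]),
          fun f => Subtype.ext (funext fun a => by
            show f.1 (conjA g⁻¹ (conjA g a)) = f.1 a
            rw [← hconjm, mul_inv_cancel, hconj1])⟩) fun g h => Equiv.ext fun f =>
          Subtype.ext (funext fun a => congrArg f.1 (hconjm g h a))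
      have : Finite Ch := (Set.finite_range _).to_subtype
      let G₁ := π.ker
      have hG₁ : G₁.FiniteIndex := ⟨by rw [Subgroup.index_ker]; exact Nat.card_pos.ne'⟩
      have hfix : ∀ f : Ch, InvR (ρ.comp G₁.subtype) (Wt f.1) := by
        intro f g v hv
        have h1 := hmove g.1 f.1 v hv
        have h2 : (fun a => f.1 (conjA g.1 a)) = f.1 :=
          congrArg Subtype.val (Equiv.congr_fun (MonoidHom.mem_ker.1 g.2) f)
        rw [← h2]
        exact h1
      have hsubH : ∀ f : Ch, ∃ H : Subgroup G₁, H.FiniteIndex ∧ ∀ g ∈ H, ∀ h ∈ H,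
          Commute (restr (ρ.comp G₁.subtype) (Wt f.1) (hfix f) g)
            (restr (ρ.comp G₁.subtype) (Wt f.1) (hfix f) h) := by
        intro f
        have hne : Wt f.1 ≠ ⊤ := fun e =>
          hx₀' ⟨f.1 ⟨x₀, hx₀⟩, fun v => (e ▸ Submodule.mem_top : v ∈ Wt f.1) ⟨x₀, hx₀⟩⟩
        refine ih _ (hd ▸ Submodule.finrank_lt hne) _ rfl
          ((hss.clifford G₁).restr _ (hfix f)) ?_
        obtain ⟨n, hn⟩ := hsol
        refine ⟨n, fun g hg => LinearMap.ext fun v => Subtype.ext ?_⟩
        have h1 : (g : Γ) ∈ derivedSeries Γ n :=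
          map_derivedSeries_le_derivedSeries G₁.subtype n ⟨g, hg, rfl⟩
        show ρ (g : Γ) (v : V) = v
        rw [hn _ h1]
        rfl
      choose H hHfi hH using hsubH
      have := Fintype.ofFinite Ch
      have hfi : (⨅ f, H f).FiniteIndex := Subgroup.finiteIndex_iInf hHfi
      refine ⟨(⨅ f, H f).map G₁.subtype, ⟨?_⟩, ?_⟩
      · rw [Subgroup.index_map_subtype]
        exact Nat.mul_ne_zero hfi.index_ne_zero hG₁.index_ne_zero
      rintro _ ⟨g, hg, rfl⟩ _ ⟨h, hh, rfl⟩
      refine b.ext fun i => ?_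
      let f : Ch := ⟨_, i, rfl⟩
      have hm : b i ∈ Wt f.1 := fun a => hχ a i
      exact congrArg Subtype.val (LinearMap.congr_fun
        (hH f g (Subgroup.mem_iInf.1 hg f) h (Subgroup.mem_iInf.1 hh f)).eq ⟨b i, hm⟩)
    -- every abelian normal part is scalar
    push Not at hA
    let Z : Subgroup Γ :=
      { carrier := {g | ∃ c : ℂ, ∀ v, ρ g v = c • v}
        one_mem' := ⟨1, fun v => by simp⟩
        mul_mem' := fun {a c} ⟨s, hs⟩ ⟨t, ht⟩ => ⟨s * t, fun v => by
          rw [rho_mul, ht, hs, smul_smul]⟩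
        inv_mem' := fun {a} ⟨c, hc⟩ => ⟨c⁻¹, fun v => by
          have h1 : c • ρ a⁻¹ v = v := by rw [← hc, rho_inv']
          rcases eq_or_ne c 0 with rfl | hc0
          · rw [zero_smul] at h1
            rw [← h1, map_zero, smul_zero]
          · conv_rhs => rw [← h1]
            rw [inv_smul_smul₀ hc0]⟩ }
    have hZn : Z.Normal := ⟨fun a ha g => by
      obtain ⟨c, hc⟩ := ha
      exact ⟨c, fun v => by rw [rho_mul, rho_mul, hc, map_smul, rho_inv']⟩⟩
    have hZ0 : ∀ g ∈ Z, ∀ c : ℂ, (∀ v, ρ g v = c • v) → c ≠ 0 := by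
      rintro g - c hc rfl
      obtain ⟨v, hv⟩ := exists_ne (0 : V)
      exact hv (by rw [← rho_inv ρ g v, hc, zero_smul, map_zero])
    refine ⟨Z, ?_, fun g ⟨c, hc⟩ h _ => LinearMap.ext fun v => by
      show ρ g (ρ h v) = ρ h (ρ g v)
      rw [hc, hc, map_smul]⟩
    -- normal subgroups abelian modulo Z
    let Ab : Subgroup Γ → Prop := fun B =>
      B.Normal ∧ Z ≤ B ∧ ∀ x ∈ B, ∀ y ∈ B, ∃ c : ℂ, ∀ v, ρ x (ρ y v) = c • ρ y (ρ x v)
    have hcen : ∀ B, Ab B → ∀ x ∈ B, (∀ y ∈ B, Commute (ρ x) (ρ y)) →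
        ∃ c : ℂ, ∀ v, ρ x v = c • v := by
      intro B hB x hx hc
      let C : Subgroup Γ :=
        { carrier := {x | x ∈ B ∧ ∀ y ∈ B, Commute (ρ x) (ρ y)}
          one_mem' := ⟨one_mem B, fun y _ => by rw [map_one]; exact Commute.one_left _⟩
          mul_mem' := fun {a c} ha hc => ⟨mul_mem ha.1 hc.1, fun y hy => by
            rw [map_mul]; exact (ha.2 y hy).mul_left (hc.2 y hy)⟩
          inv_mem' := fun {a} ha => ⟨inv_mem ha.1, fun y hy => LinearMap.ext fun v => by
            show ρ a⁻¹ (ρ y v) = ρ y (ρ a⁻¹ v)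
            have := LinearMap.congr_fun (ha.2 y hy).eq (ρ a⁻¹ v)
            simp only [Module.End.mul_apply, rho_inv'] at this
            rw [← this, rho_inv]⟩ }
      have hCn : C.Normal := ⟨fun a ha g => ⟨hB.1.conj_mem a ha.1 g, fun y hy => by
        have hy' := ha.2 (g⁻¹ * y * g) (by simpa using hB.1.conj_mem y hy g⁻¹)
        refine LinearMap.ext fun v => ?_
        show ρ (g * a * g⁻¹) (ρ y v) = ρ y (ρ (g * a * g⁻¹) v)
        have h2 := congrArg (ρ g) (LinearMap.congr_fun hy'.eq (ρ g⁻¹ v))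
        simp only [Module.End.mul_apply, rho_mul, rho_inv'] at h2
        simp only [rho_mul]
        exact h2⟩⟩
      exact hA C hCn (fun a ha c hc' => ha.2 c hc'.1) x ⟨hx, hc⟩
    -- finitely many classes modulo scalars
    have hfinB : ∀ B, Ab B → ∀ k (e : Fin k → Γ), (∀ i, e i ∈ B) →
        (∀ i j, i ≠ j → ¬ ∃ c : ℂ, ∀ v, ρ (e i) v = c • ρ (e j) v) →
        k ≤ finrank ℂ (Module.End ℂ V) :=
      fun B hB k e he hne => card_le_sq ρ B hB.2.2 (hcen B hB) e he hne
    let Reps : Subgroup Γ → ℕ → Prop := fun B k => ∃ e : Fin k → Γ, (∀ i, e i ∈ B) ∧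
      ∀ i j, i ≠ j → ¬ ∃ c : ℂ, ∀ v, ρ (e i) v = c • ρ (e j) v
    let P : ℕ → Prop := fun k => ∃ B, Ab B ∧ Reps B k
    have hP : ∀ k, P k → k ≤ finrank ℂ (Module.End ℂ V) :=
      fun k ⟨B, hB, e, he, hne⟩ => hfinB B hB k e he hne
    have hP1 : P 1 := ⟨Z, ⟨hZn, le_rfl, fun x ⟨c, hc⟩ y _ => ⟨1, fun v => by
      rw [hc, hc, map_smul, one_smul]⟩⟩, fun _ => 1, fun _ => one_mem Z,
      fun i j h => absurd (Subsingleton.elim i j) h⟩
    obtain ⟨k, ⟨B, hB, e, he, hne⟩, hmax⟩ : ∃ k, P k ∧ ∀ l, P l → l ≤ k :=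
      ⟨Nat.findGreatest P (finrank ℂ (Module.End ℂ V)),
        Nat.findGreatest_spec (hP 1 hP1) hP1, fun l hl => Nat.le_findGreatest (hP l hl) hl⟩
    have hall : ∀ x ∈ B, ∃ i, ∃ c : ℂ, ∀ v, ρ x v = c • ρ (e i) v := by
      intro x hx
      by_contra hno
      push Not at hno
      have hlt : P (k + 1) := by
        refine ⟨B, hB, Fin.snoc e x, fun i => ?_, fun i j hij => ?_⟩
        · refine Fin.lastCases ?_ (fun i => ?_) i
          · simpa using hx
          · simpa using he i
        · revert hij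
          refine Fin.lastCases ?_ (fun i => ?_) i <;> refine Fin.lastCases ?_ (fun j => ?_) j
          · exact fun h => absurd rfl h
          · rintro - ⟨c, hc⟩
            obtain ⟨v, hv⟩ := hno j c
            exact hv (by simpa using hc v)
          · rintro - ⟨c, hc⟩
            simp only [Fin.snoc_castSucc, Fin.snoc_last] at hc
            have hc0 : c ≠ 0 := by
              rintro rfl
              obtain ⟨v, hv⟩ := exists_ne (0 : V)
              exact hv (by rw [← rho_inv ρ (e i) v, hc, zero_smul, map_zero])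
            obtain ⟨v, hv⟩ := hno i c⁻¹
            exact hv (by rw [hc, inv_smul_smul₀ hc0])
          · intro h
            simpa using hne i j fun e' => h (by rw [e'])
      have := hmax _ hlt
      omega
    -- the centraliser of B is scalar
    let C₀ : Subgroup Γ :=
      { carrier := {g | ∀ y ∈ B, Commute (ρ g) (ρ y)}
        one_mem' := fun y _ => by rw [map_one]; exact Commute.one_left _
        mul_mem' := fun {a c} ha hc y hy => by
          rw [map_mul]; exact (ha y hy).mul_left (hc y hy)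
        inv_mem' := fun {a} ha y hy => LinearMap.ext fun v => by
          show ρ a⁻¹ (ρ y v) = ρ y (ρ a⁻¹ v)
          have := LinearMap.congr_fun (ha y hy).eq (ρ a⁻¹ v)
          simp only [Module.End.mul_apply, rho_inv'] at this
          rw [← this, rho_inv] }
    have hC₀n : C₀.Normal := ⟨fun a ha g y hy => by
      have hy' := ha (g⁻¹ * y * g) (by simpa using hB.1.conj_mem y hy g⁻¹)
      refine LinearMap.ext fun v => ?_
      show ρ (g * a * g⁻¹) (ρ y v) = ρ y (ρ (g * a * g⁻¹) v)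
      have h2 := congrArg (ρ g) (LinearMap.congr_fun hy'.eq (ρ g⁻¹ v))
      simp only [Module.End.mul_apply, rho_mul, rho_inv'] at h2
      simp only [rho_mul]
      exact h2⟩
    have hC₀Z : C₀ ≤ Z := by
      obtain ⟨n, hn⟩ := hsol
      let D : ℕ → Subgroup Γ := fun j => Nat.rec C₀ (fun _ K => ⁅K, K⁆) j
      have hDn : ∀ j, (D j).Normal := fun j => by
        induction j with
        | zero => exact hC₀n
        | succ j ihj => exact @Subgroup.commutator_normal Γ _ _ _ ihj ihj
      have hDC : ∀ j, D j ≤ C₀ := fun j => by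
        induction j with
        | zero => exact le_rfl
        | succ j ihj =>
          refine le_trans ?_ ihj
          have := hDn j
          exact @Subgroup.commutator_le_left Γ _ (D j) (D j) (hDn j)
      have hDd : ∀ j, D j ≤ derivedSeries Γ j := fun j => by
        induction j with
        | zero => simp
        | succ j ihj =>
          rw [derivedSeries_succ]
          exact Subgroup.commutator_mono ihj ihj
      have hstep : ∀ j, D (j + 1) ≤ Z → D j ≤ Z := by
        intro j hj x hx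
        have hxy : ∀ x ∈ D j, ∀ y ∈ D j, ∃ c : ℂ, ∀ v, ρ x (ρ y v) = c • ρ y (ρ x v) := by
          intro x hx y hy
          obtain ⟨c, hc⟩ := hj (Subgroup.commutator_mem_commutator hx hy)
          refine ⟨c, fun v => ?_⟩
          rw [← hc, ← rho_mul, ← rho_mul, ← rho_mul]
          congr 2
          simp only [commutatorElement_def]
          group
        let B' : Subgroup Γ := B ⊔ D j
        have hB'n : B'.Normal := by
          have := hB.1
          have := hDn j
          exact @Subgroup.sup_normal Γ _ B (D j) hB.1 (hDn j)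
        have hcom : ∀ g : Γ, (∀ y ∈ B, ∃ c : ℂ, ∀ v, ρ g (ρ y v) = c • ρ y (ρ g v)) →
            (∀ y ∈ D j, ∃ c : ℂ, ∀ v, ρ g (ρ y v) = c • ρ y (ρ g v)) →
            ∀ y ∈ B', ∃ c : ℂ, ∀ v, ρ g (ρ y v) = c • ρ y (ρ g v) := by
          intro g h1 h2 y hy
          let K : Submonoid Γ :=
            { carrier := {y | ∃ c : ℂ, ∀ v, ρ g (ρ y v) = c • ρ y (ρ g v)}
              one_mem' := ⟨1, fun v => by simp⟩
              mul_mem' := fun {a c} ⟨s, hs⟩ ⟨t, ht⟩ => ⟨s * t, fun v => by
                rw [rho_mul, hs, ht, map_smul, smul_smul, rho_mul]⟩ }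
          obtain ⟨y₁, hy₁, y₂, hy₂, rfl⟩ : ∃ y₁ ∈ B, ∃ y₂ ∈ D j, y₁ * y₂ = y := by
            have := hB.1
            have hy' : y ∈ (↑(B ⊔ D j) : Set Γ) := hy
            rw [Subgroup.normal_mul] at hy'
            exact Set.mem_mul.1 hy'
          exact K.mul_mem (h1 y₁ hy₁) (h2 y₂ hy₂)
        have hflip : ∀ a c : Γ, (∃ s : ℂ, ∀ v, ρ a (ρ c v) = s • ρ c (ρ a v)) →
            ∃ s : ℂ, ∀ v, ρ c (ρ a v) = s • ρ a (ρ c v) := by
          rintro a c ⟨s, hs⟩
          rcases eq_or_ne s 0 with rfl | hs0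
          · obtain ⟨v, hv⟩ := exists_ne (0 : V)
            have := hs v
            rw [zero_smul] at this
            exact absurd (by rw [← rho_inv ρ c v, ← rho_inv ρ a (ρ c v), this, map_zero, map_zero]) hv
          · exact ⟨s⁻¹, fun v => by rw [hs, inv_smul_smul₀ hs0]⟩
        have hBD : ∀ a ∈ B, ∀ c ∈ D j, ∃ s : ℂ, ∀ v, ρ a (ρ c v) = s • ρ c (ρ a v) :=
          fun a ha c hc => ⟨1, fun v => by
            rw [one_smul]
            exact (LinearMap.congr_fun (hDC j hc a ha).eq v).symm⟩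
        have hB' : Ab B' := by
          refine ⟨hB'n, hB.2.1.trans le_sup_left, fun g hg y hy => ?_⟩
          refine hcom g (fun y hy => ?_) (fun y hy => ?_) y hy
          · exact hflip _ _ (hcom y (hB.2.2 y hy) (hBD y hy) g hg)
          · exact hflip _ _ (hcom y (fun a ha => hflip _ _ (hBD a ha y hy)) (hxy y hy) g hg)
        have hx' : x ∈ B := by
          by_contra hxB
          have hP' : P (k + 1) := by
            refine ⟨B', hB', Fin.snoc e x, fun i => ?_, fun i j' hij => ?_⟩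
            · refine Fin.lastCases ?_ (fun i => ?_) i
              · simpa using (le_sup_right : D j ≤ B') hx
              · simpa using (le_sup_left : B ≤ B') (he i)
            · have key : ∀ i : Fin k, ¬ ∃ c : ℂ, ∀ v, ρ x v = c • ρ (e i) v := by
                rintro i ⟨c, hc⟩
                have hq : x * (e i)⁻¹ ∈ Z := ⟨c, fun v => by rw [rho_mul, hc, rho_inv']⟩
                exact hxB (by simpa using mul_mem (hB.2.1 hq) (he i))
              revert hij
              refine Fin.lastCases ?_ (fun i => ?_) i <;> refine Fin.lastCases ?_ (fun j' => ?_) j'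
              · exact fun h => absurd rfl h
              · rintro - h
                exact key j' (by simpa using h)
              · rintro - ⟨c, hc⟩
                simp only [Fin.snoc_castSucc, Fin.snoc_last] at hc
                have hc0 : c ≠ 0 := by
                  rintro rfl
                  obtain ⟨v, hv⟩ := exists_ne (0 : V)
                  exact hv (by rw [← rho_inv ρ (e i) v, hc, zero_smul, map_zero])
                exact key i ⟨c⁻¹, fun v => by rw [hc, inv_smul_smul₀ hc0]⟩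
              · intro h
                simpa using hne i j' fun e' => h (by rw [e'])
          have := hmax _ hP'
          omega
        exact hcen B hB x hx' fun y hy => hDC j hx y hy
      have hnZ : ∀ j, j ≤ n → D (n - j) ≤ Z := by
        intro j
        induction j with
        | zero =>
          intro _ g hg
          exact ⟨1, fun v => by rw [Nat.sub_zero] at hg; rw [hn g (hDd n hg), one_smul]; rfl⟩
        | succ j ihj =>
          intro hj
          exact hstep (n - (j + 1)) (by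
            rw [show n - (j + 1) + 1 = n - j by omega]
            exact ihj (by omega))
      simpa [D] using hnZ n le_rfl
    -- finitely many conjugation patterns
    let Sc : Set ℂ := {c | ∃ i j : Fin k,
      c ^ finrank ℂ V * LinearMap.det (ρ (e j)) = LinearMap.det (ρ (e i))}
    have hdet0 : ∀ g, LinearMap.det (ρ g) ≠ 0 := fun g h => by
      have := congrArg LinearMap.det (show ρ g * ρ g⁻¹ = 1 by
        rw [← map_mul, mul_inv_cancel, map_one])
      rw [map_mul, h, zero_mul, map_one] at this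
      exact zero_ne_one this
    have hScfin : Sc.Finite := by
      have hsub : Sc ⊆ ⋃ i : Fin k, ⋃ j : Fin k,
          {c | c ^ finrank ℂ V * LinearMap.det (ρ (e j)) = LinearMap.det (ρ (e i))} :=
        fun c ⟨i, j, h⟩ => Set.mem_iUnion.2 ⟨i, Set.mem_iUnion.2 ⟨j, h⟩⟩
      refine (Set.finite_iUnion fun i => Set.finite_iUnion fun j => ?_).subset hsub
      have hpos : 0 < finrank ℂ V := Module.finrank_pos
      refine ((Polynomial.nthRoots (finrank ℂ V)
        (LinearMap.det (ρ (e i)) / LinearMap.det (ρ (e j)))).toFinset.finite_toSet).subset ?_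
      intro c hc
      simp only [Finset.mem_coe, Multiset.mem_toFinset, Polynomial.mem_nthRoots hpos]
      rw [eq_div_iff (hdet0 _)]
      exact hc
    have : Finite Sc := hScfin.to_subtype
    have hconj : ∀ g i, ∃ q : Fin k × Sc,
        ∀ v, ρ (g⁻¹ * e i * g) v = (q.2 : ℂ) • ρ (e q.1) v := by
      intro g i
      obtain ⟨j, c, hc⟩ := hall (g⁻¹ * e i * g) (by simpa using hB.1.conj_mem _ (he i) g⁻¹)
      refine ⟨(j, ⟨c, i, j, ?_⟩), hc⟩
      have h1 : ρ (g⁻¹ * e i * g) = c • ρ (e j) := LinearMap.ext fun v => by simpa using hc v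
      have h2 := congrArg LinearMap.det h1
      rw [LinearMap.det_smul, map_mul, map_mul, map_mul, map_mul, mul_right_comm,
        ← map_mul LinearMap.det (ρ g⁻¹) (ρ g), ← map_mul ρ g⁻¹ g, inv_mul_cancel, map_one,
        map_one, one_mul] at h2
      exact h2.symm
    choose pat hpat using hconj
    let F : Γ ⧸ Z → (Fin k → Fin k × Sc) := fun q i => pat q.out⁻¹ i
    have hFinj : Function.Injective F := by
      intro q q' hqq
      rw [← q.out_eq, ← q'.out_eq]
      refine QuotientGroup.eq.2 (hC₀Z fun y hy => ?_)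
      have hei : ∀ i v, ρ (q.out * e i * q.out⁻¹) v = ρ (q'.out * e i * q'.out⁻¹) v := by
        intro i v
        have h1 := hpat q.out⁻¹ i v
        have h2 := hpat q'.out⁻¹ i v
        rw [inv_inv] at h1 h2
        rw [h1, h2, show pat q.out⁻¹ i = pat q'.out⁻¹ i from congrFun hqq i]
      obtain ⟨i, c, hc⟩ := hall y hy
      refine LinearMap.ext fun v => ?_
      show ρ (q.out⁻¹ * q'.out) (ρ y v) = ρ y (ρ (q.out⁻¹ * q'.out) v)
      rw [hc, hc, map_smul]
      congr 1
      have := congrArg (ρ q.out⁻¹) (hei i (ρ q'.out v))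
      rw [← rho_mul, ← rho_mul, ← rho_mul, ← rho_mul] at this
      rw [← rho_mul, ← rho_mul]
      rw [show q.out⁻¹ * q'.out * e i = q.out⁻¹ * (q'.out * e i * q'.out⁻¹ * q'.out) by group,
        show e i * (q.out⁻¹ * q'.out) = q.out⁻¹ * (q.out * e i * q.out⁻¹ * q'.out) by group]
      simp only [mul_assoc] at this ⊢
      exact this.symm
    have : Finite (Γ ⧸ Z) := Finite.of_injective F hFinj
    exact Subgroup.finiteIndex_of_finite_quotient

end Vale.Agent.P002.Solv
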